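import Vale.Agent.P261.H621.Defs
import Vale.Agent.P251.S.GrC
import Vale.Agent.P251.S.Coprod
import Mathlib.Algebra.MvPolynomial.Cardinal

/-!
# P261 (second hand-in): countability

* `CtH` is closed under isomorphisms, shifts, triangles, countable coproducts, telescopes;
* `ct_one`: `(R^{⊗ (m+1)} ⊗ C) ⊗ 𝟙` has countable homotopy;
* `ctH_Ns`: `N_s ⊗ (gk j ⊗ Tl i)` has countable homotopy.
-/

open CategoryTheory MonoidalCategory Limits Pretriangulated MonObj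

set_option linter.unusedSectionVars false

universe v u

namespace Vale.Agent.P261.H681

open Vale.Agent.P251.S Vale.Agent.P251.T Vale.Agent.P251.M Vale.Agent.P251.F Vale.Agent.P251
open Vale.Agent.P251.M.EvenSpheres Vale.Agent.P261.H621

/-! ### countable rings -/

instance countable_mvPolynomial {σ R : Type} [CommRing R] [Countable σ] [Countable R] :
    Countable (MvPolynomial σ R) := by
  rw [← Cardinal.mk_le_aleph0_iff]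
  refine MvPolynomial.cardinalMk_le_max.trans ?_
  simp

instance countable_laz : Countable Laz :=
  Laz.mk_surjective.countable

/-! ### objects with countable homotopy -/

section Gen

variable {T : Type u} [Category.{v} T] [Preadditive T] [HasZeroObject T]
    [HasShift T ℤ] [∀ n : ℤ, (shiftFunctor T n).Additive] [Pretriangulated T]
    [MonoidalCategory T]

theorem ctH_of_iso {X Y : T} (e : X ≅ Y) (h : CtH X) : CtH Y := by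
  intro t
  have := h t
  refine Function.Surjective.countable (f := fun x : (𝟙_ T)⟦t⟧ ⟶ X => x ≫ e.hom) fun y => ?_
  exact ⟨y ≫ e.inv, by simp⟩

theorem ctH_mid {X Y Z : T} {f : X ⟶ Y} {g : Y ⟶ Z} {w : Z ⟶ X⟦(1 : ℤ)⟧}
    (hΔ : Triangle.mk f g w ∈ distTriang T) (hX : CtH X) (hZ : CtH Z) : CtH Y := by
  intro t
  have h1 := hX t
  have h3 := hZ t
  classical
  let c : ((𝟙_ T)⟦t⟧ ⟶ Z) → ((𝟙_ T)⟦t⟧ ⟶ Y) := fun z =>
    if h : ∃ y, y ≫ g = z then h.choose else 0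
  refine Function.Surjective.countable
    (f := fun q : ((𝟙_ T)⟦t⟧ ⟶ X) × ((𝟙_ T)⟦t⟧ ⟶ Z) => q.1 ≫ f + c q.2) fun y => ?_
  have hc : c (y ≫ g) ≫ g = y ≫ g := by
    have h : ∃ y', y' ≫ g = y ≫ g := ⟨y, rfl⟩
    change (if h : ∃ y', y' ≫ g = y ≫ g then h.choose else 0) ≫ g = y ≫ g
    rw [dif_pos h]
    exact h.choose_spec
  obtain ⟨x, hx⟩ := Triangle.coyoneda_exact₂ _ hΔ (y - c (y ≫ g))
    (by
      change (y - c (y ≫ g)) ≫ g = 0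
      rw [Preadditive.sub_comp, hc, sub_self])
  exact ⟨(x, y ≫ g), by
    change x ≫ f + c (y ≫ g) = y
    change y - c (y ≫ g) = x ≫ f at hx
    rw [← hx, sub_add_cancel]⟩

theorem ctH_shift {X : T} (h : CtH X) (n : ℤ) : CtH (X⟦n⟧) := by
  intro t
  have := h (t - n)
  let e : (𝟙_ T)⟦t⟧ ≅ (𝟙_ T)⟦t - n⟧⟦n⟧ := (shiftFunctorAdd' T (t - n) n t (by ring)).app (𝟙_ T)
  refine Function.Surjective.countable
    (f := fun x : (𝟙_ T)⟦t - n⟧ ⟶ X => e.hom ≫ x⟦n⟧') fun y => ?_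
  obtain ⟨x, hx⟩ := (shiftFunctor T n).map_surjective (e.inv ≫ y)
  exact ⟨x, by
    change e.hom ≫ (shiftFunctor T n).map x = y
    rw [hx, Iso.hom_inv_id_assoc]⟩

theorem ctH_of_shift {X : T} (n : ℤ) (h : CtH (X⟦n⟧)) : CtH X :=
  ctH_of_iso ((shiftFunctorCompIsoId T n (-n) (by omega)).app X) (ctH_shift h (-n))

theorem ctH_cof {X Y Z : T} {f : X ⟶ Y} {g : Y ⟶ Z} {w : Z ⟶ X⟦(1 : ℤ)⟧}
    (hΔ : Triangle.mk f g w ∈ distTriang T) (hX : CtH X) (hY : CtH Y) : CtH Z :=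
  ctH_mid (rot_of_distTriang _ hΔ) hY (ctH_shift hX 1)

theorem ctH_fib {X Y Z : T} {f : X ⟶ Y} {g : Y ⟶ Z} {w : Z ⟶ X⟦(1 : ℤ)⟧}
    (hΔ : Triangle.mk f g w ∈ distTriang T) (hY : CtH Y) (hZ : CtH Z) : CtH X :=
  ctH_mid (inv_rot_of_distTriang _ hΔ) (ctH_shift hZ (-1)) hY

end Gen

section Stab

variable {T : Type u} [Category.{v} T] [Preadditive T] [HasZeroObject T]
    [HasShift T ℤ] [∀ n : ℤ, (shiftFunctor T n).Additive] [Pretriangulated T] [IsTriangulated T]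
    [MonoidalCategory T] [SymmetricCategory T] [TensorTriangulated T] [MonoidalClosed T]
    [HasCoproducts.{0} T] [HasProducts.{0} T] [StableCat T]

theorem ctH_coprodL (Q : T) {I : Type} [Countable I] (X : I → T) (h : ∀ i, CtH (Q ⊗ X i)) :
    CtH (Q ⊗ ∐ X) := by
  intro t
  have := fun i => h i t
  refine Function.Surjective.countable
    (f := fun l : List (Σ i, (𝟙_ T)⟦t⟧ ⟶ Q ⊗ X i) =>
      (l.map fun q => q.2 ≫ Q ◁ Sigma.ι X q.1).sum) fun y => ?_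
  obtain ⟨s, g, rfl⟩ := compact_sumL Q X (A := (𝟙_ T)⟦t⟧) ⟨t, ⟨Iso.refl _⟩⟩ y
  refine ⟨s.toList.map fun i => ⟨i, g i⟩, ?_⟩
  change ((s.toList.map fun i => (⟨i, g i⟩ : Σ i, (𝟙_ T)⟦t⟧ ⟶ Q ⊗ X i)).map
    fun q => q.2 ≫ Q ◁ Sigma.ι X q.1).sum = _
  rw [List.map_map, Finset.sum_map_toList]
  rfl

theorem ctH_coprod {I : Type} [Countable I] (X : I → T) (h : ∀ i, CtH (X i)) :
    CtH (∐ X) :=
  ctH_of_iso (λ_ _) (ctH_coprodL (𝟙_ T) X fun i => ctH_of_iso (λ_ _).symm (h i))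

theorem ctH_tel {X : ℕ → T} {f : ∀ n, X n ⟶ X (n + 1)} {Z : T} {ι : ∀ n, X n ⟶ Z}
    (hZ : S.IsTel f ι) (h : ∀ n, CtH (X n)) : CtH Z := by
  obtain ⟨w, hw⟩ := hZ
  exact ctH_cof hw (ctH_coprod X h) (ctH_coprod X h)

theorem ctH_telL (Q : T) {X : ℕ → T} {f : ∀ n, X n ⟶ X (n + 1)} {Z : T} {ι : ∀ n, X n ⟶ Z}
    (hZ : S.IsTel f ι) (h : ∀ n, CtH (Q ⊗ X n)) : CtH (Q ⊗ Z) :=
  ctH_tel (hZ.whiskerLeft Q) h


theorem tens_dist' (Y : T) {X X' C : T} {f : X ⟶ X'} {q : X' ⟶ C} {δ : C ⟶ X⟦(1 : ℤ)⟧}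
    (h : Triangle.mk f q δ ∈ distTriang T) :
    Triangle.mk (Y ◁ f) (Y ◁ q) (tensδ Y δ) ∈ distTriang T := tens_dist Y h

variable (D : I.MUData T) (C : T)

/-- The class of the objects `Z` such that `(R^{⊗ (m+1)} ⊗ C) ⊗ Z` has countable homotopy for all
`m`. -/
def Ct (Z : T) : Prop := ∀ m : ℕ, CtH ((Am D.R (m + 1) ⊗ C) ⊗ Z)

variable {D C}

theorem Ct.of_iso {Z Z' : T} (e : Z ≅ Z') (h : Ct D C Z) : Ct D C Z' := fun m =>
  ctH_of_iso (whiskerLeftIso _ e) (h m)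

theorem Ct.fib {X Y Z : T} {f : X ⟶ Y} {g : Y ⟶ Z} {w : Z ⟶ X⟦(1 : ℤ)⟧}
    (hΔ : Triangle.mk f g w ∈ distTriang T) (hY : Ct D C Y) (hZ : Ct D C Z) : Ct D C X := fun m =>
  ctH_fib (tens_dist _ hΔ) (hY m) (hZ m)

theorem Ct.tel {X : ℕ → T} {f : ∀ n, X n ⟶ X (n + 1)} {Z : T} {ι : ∀ n, X n ⟶ Z}
    (hZ : S.IsTel f ι) (h : ∀ n, Ct D C (X n)) : Ct D C Z := fun m =>
  ctH_telL _ hZ fun n => h n m

theorem Ct.tensor_R {Z : T} (h : Ct D C Z) : Ct D C (Z ⊗ D.R) := fun m =>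
  ctH_of_iso ((α_ (Am D.R (m + 1) ⊗ D.R) C Z) ≪≫ (α_ (Am D.R (m + 1)) D.R (C ⊗ Z)) ≪≫
    whiskerLeftIso _ ((β_ D.R (C ⊗ Z)) ≪≫ α_ C Z D.R) ≪≫
      (α_ (Am D.R (m + 1)) C (Z ⊗ D.R)).symm) (h (m + 1))

theorem Ct.tensor_PS {Z : T} (h : Ct D C Z) : Ct D C (Z ⊗ (stdEven T).PS) := fun m =>
  ctH_of_iso (α_ (Am D.R (m + 1) ⊗ C) Z (stdEven T).PS)
    (ctH_coprodL ((Am D.R (m + 1) ⊗ C) ⊗ Z) (fun n : ℤ => (stdEven T).S n) fun n =>
      ctH_of_iso (((stdEven T).shiftNat (Iso.refl _) n).app _).symm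
        (ctH_shift (h m) (2 * n)))

theorem Ct.tensor_P {Z : T} (h : Ct D C Z) : Ct D C (Z ⊗ (D.R ⊗ (stdEven T).PS)) :=
  (h.tensor_R.tensor_PS).of_iso (α_ Z D.R (stdEven T).PS)

theorem Ct.tensor_tel {Z : T} (h : Ct D C Z) {f : ℕ → (D.R ⊗ (stdEven T).PS ⟶ D.R ⊗ (stdEven T).PS)}
    {L : T} {ι : ℕ → (D.R ⊗ (stdEven T).PS ⟶ L)}
    (hL : S.IsTel (X := fun _ => D.R ⊗ (stdEven T).PS) f ι) : Ct D C (Z ⊗ L) :=
  Ct.tel (hL.whiskerLeft Z) fun _ => h.tensor_P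

section base

variable (D) {p : ℕ} [Fact p.Prime] (hp : p ≠ 2) {i : 𝟙_ T ⟶ C} {δ : C ⟶ (𝟙_ T)⟦(1 : ℤ)⟧}
  (hC : Triangle.mk ((p : ℤ) • 𝟙 (𝟙_ T)) i δ ∈ distTriang T)

include hp hC

/-- `R^{⊗ (s+1)} ⊗ S/p` has countable homotopy. -/
theorem ctH_am (s : ℕ) : CtH (Am D.R (s + 1) ⊗ C) := by
  intro t
  rcases Int.even_or_odd' t with ⟨w, rfl | rfl⟩
  · classical
    let e : (stdEven T).S w ≅ (𝟙_ T)⟦(2 * w : ℤ)⟧ := (stdEven T).sphIso (Iso.refl _) w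
    let φ : Cob Laz s → ((𝟙_ T)⟦(2 * w : ℤ)⟧ ⟶ Am D.R (s + 1) ⊗ C) := fun z =>
      if h : ∃ a, D.ev s z = HRing.of (stdEven T) (Am D.R (s + 1)) w a then
        e.inv ≫ h.choose ≫ (ρ_ (Am D.R (s + 1))).inv ≫ (Am D.R (s + 1) ◁ i) else 0
    refine Function.Surjective.countable (f := φ) fun f => ?_
    obtain ⟨z, a, -, hz, ha⟩ := D.surj p hp s C i δ hC w (e.hom ≫ f)
    have h : ∃ a, D.ev s z = HRing.of (stdEven T) (Am D.R (s + 1)) w a := ⟨a, hz⟩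
    refine ⟨z, ?_⟩
    have h1 : φ z = e.inv ≫ h.choose ≫ (ρ_ (Am D.R (s + 1))).inv ≫ (Am D.R (s + 1) ◁ i) :=
      dif_pos h
    have h2 : h.choose = a :=
      DirectSum.of_injective (β := (stdEven T).Gr (Am D.R (s + 1))) w (h.choose_spec.symm.trans hz)
    rw [h1, h2, ← ha, Iso.inv_hom_id_assoc]
  · have : Subsingleton ((𝟙_ T)⟦(2 * w + 1 : ℤ)⟧ ⟶ Am D.R (s + 1) ⊗ C) :=
      ⟨fun x y => (D.odd p hp s C i δ hC w x).trans (D.odd p hp s C i δ hC w y).symm⟩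
    infer_instance

theorem ct_one : Ct D C (𝟙_ T) := fun m => ctH_of_iso (ρ_ _).symm (ctH_am D hp hC m)

variable (Kf : KosFam D.P (p : ℤ) (D.vs p))

theorem ct_gk (j : ℕ) : Ct D C (Kf.gk j) := by
  induction j with
  | zero => exact ct_one D hp hC
  | succ j ih =>
    exact Ct.fib (tens_dist (Kf.gk j) (Kf.distG (j + 1))) ih.tensor_P
      (ih.tensor_tel (Kf.isTel (j + 1)))

/-- **`N_s ⊗ (G_1 ⊗ ⋯ ⊗ G_j ⊗ v_i⁻¹ P)` has countable homotopy.** -/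
theorem ctH_Ns (s j i : ℕ) : CtH (GD.Ns D C s ⊗ (Kf.gk j ⊗ Kf.Tl i)) :=
  ctH_of_iso (whiskerLeftIso _ (β_ _ _) ≪≫
      (α_ (Am D.R (s + 1) ⊗ C) (stdEven T).PS (Kf.gk j ⊗ Kf.Tl i)).symm)
    (((ct_gk D hp hC Kf j).tensor_tel (Kf.isTel i)).tensor_PS s)

end base

end Stab

end Vale.Agent.P261.H681
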