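import Vale.Agent.P261.H681.Desc
import Vale.Agent.P261.LimSeq

/-!
# P261, part B2: finiteness of the cohomology of the levels of the towers `towerN p h w`
-/

namespace Vale.Agent.P261.H681

open Vale.Agent.P251.C Vale.Agent.P251.F LawRing

variable {p h : ℕ} [hp : Fact p.Prime]

/-- **Base case**: the cohomology of all levels of the towers `towerN p h w` is finite. -/
theorem fin_lev (hp2 : p ≠ 2) (hh : h ≠ 0) (w : ℤ) (s j : ℕ) :
    (levCx (Vale.Agent.P251.I.towerN p h w) j).Fin s := by
  obtain ⟨T, hT, hTZ, h1⟩ := (cfin_NN (p := p) hp2 hh j s w).exists_subset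
  refine ⟨{x | tval (w := w) (s := s) (j := j) x ∈ T}, ?_, ?_⟩
  · exact hT.preimage (Function.Injective.injOn (tval_injective p h))
  · intro x hx
    obtain ⟨t, ht, hxt⟩ := h1 (tval (w := w) (s := s) (j := j) x)
      ⟨(show Cob.wt (NN p h (j + 1)) s w from x).2, congrArg Subtype.val hx⟩
    have htw := (hTZ ht).1
    refine ⟨(show Cob.wt (NN p h (j + 1)) s w from ⟨t, htw⟩), ht, ?_⟩
    rcases s with _ | s
    · rw [mem_BC_zero, sub_eq_zero] at hxt
      rw [Cx.mem_B_zero]
      refine Subtype.ext ?_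
      change (show Cob.wt (NN p h (j + 1)) 0 w from x).1 - t = 0
      rw [sub_eq_zero]
      exact hxt
    · obtain ⟨y, hy, hyx⟩ := hxt
      refine ⟨(show Cob.wt (NN p h (j + 1)) s w from ⟨y, hy⟩), Subtype.ext hyx⟩

end Vale.Agent.P261.H681
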