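import Vale.Agent.P261.H681.H0e
import Vale.Agent.P261.H681.Lev

/-!
# P261: `H^0` of the inverse limit of the cobar complexes of `v_h⁻¹ Laz/(p, I_h^j)`

* `H0_van`: it vanishes in negative weights if `h ≥ 2`;
* `H0_fin`: it is finite in every weight.
-/

set_option linter.unusedSectionVars false

namespace Vale.Agent.P261.H681

open Vale.Agent.P217 Vale.Agent.P251.F Vale.Agent.P251.S LawRing

section cob0

variable {T : Type} [CommRing T]

theorem cob0_surj (x : Cob T 0) : ∃ t : T, MvPolynomial.C t = x :=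
  MvPolynomial.C_surjective _ x

theorem cob0_inj {s t : T} (h : (MvPolynomial.C s : Cob T 0) = MvPolynomial.C t) : s = t :=
  MvPolynomial.C_injective _ _ h

end cob0

variable {p h : ℕ} [hp : Fact p.Prime]

/-- The inverse limit of the towers modulo `(v_0, …, v_{k-1})`. -/
noncomputable abbrev LQ (p h : ℕ) [Fact p.Prime] (k : ℕ) (w : ℤ) : Cx.{0} :=
  limCx (quoTow p k (NT p h) (rT p h) (hrT p h) w)

/-- No cocycles of degree `0` in negative weights. -/
def Van (p h : ℕ) [Fact p.Prime] (k : ℕ) : Prop :=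
  ∀ w < 0, ∀ x ∈ (LQ p h k w).Z 0, x = 0

/-- the short exact sequence of multiplication by `v_k` -/
noncomputable def vE (p h : ℕ) [Fact p.Prime] {k : ℕ} (hk : k ≠ 0) (w : ℤ) :
    ShortEx (LQ p h k (w - ((p ^ k : ℤ) - 1))) (LQ p h k w) (LQ p h (k + 1) w) :=
  (vSeq p k (NT p h) (rT p h) (hrT p h) (fun _ => NN_red_surjective p h _)
    (fun _ x hx => reg_NN p h hk x hx) w).shortEx

theorem vv_pow_eq_zero {k : ℕ} (hk : k < h) (j : ℕ) :
    (vv p k (LawRing.law (N := QK p k (NT p h j)))) ^ (j + 1) = 0 := by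
  rw [vv_QK, ← map_pow]
  have h1 : vv p k (LawRing.law (N := NT p h j)) ^ (j + 1) ∈
      Ih p h (LawRing.law (N := NT p h j)) ^ (j + 1) := Ideal.pow_mem_pow (vv_mem_Ih hk _) _
  have h2 : Ih p h (LawRing.law (N := NT p h j)) ^ (j + 1) = ⊥ := (NN.isTy (p := p) (h := h)
    (j := j + 1)).pow
  rw [h2, Ideal.mem_bot] at h1
  rw [h1, map_zero]

/-- If the cocycles of negative weight vanish modulo `v_k` then they vanish. -/
theorem van_of {k : ℕ} (hk : k ≠ 0) (hkh : k < h)
    (H : ∀ w < 0, ∀ x ∈ (LQ p h k w).Z 0, (vE p h hk w).q 0 x = 0) : Van p h k := by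
  have key : ∀ (n : ℕ) (w : ℤ), w < 0 → ∀ x ∈ (LQ p h k w).Z 0, ∀ j,
      ∃ z : Cob (QK p k (NT p h j)) 0, (x.1 j).1 =
        (MvPolynomial.C (vv p k (LawRing.law (N := QK p k (NT p h j))))) ^ n * z := by
    intro n
    induction n with
    | zero =>
      intro w _ x _ j
      exact ⟨(x.1 j).1, by rw [pow_zero, one_mul]⟩
    | succ n ih =>
      intro w hw x hx j
      obtain ⟨x', hx'⟩ := (vE p h hk w).ex 0 x (H w hw x hx)
      have hpos := pow_sub_one_pos p (k := k) (by omega)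
      have hx'Z : x' ∈ (LQ p h k (w - ((p ^ k : ℤ) - 1))).Z 0 :=
        (vE p h hk w).mem_Z_of_i (by rw [hx']; exact hx)
      obtain ⟨z, hz⟩ := ih _ (by linarith) x' hx'Z j
      refine ⟨z, ?_⟩
      have h1 : (x.1 j).1 = vmul p k 0 (x'.1 j).1 := by
        rw [← hx']
        rfl
      rw [h1, vmul_apply, hz, ← mul_assoc, ← pow_succ']
  intro w hw x hx
  refine Subtype.ext (funext fun j => Subtype.ext ?_)
  obtain ⟨z, hz⟩ := key (j + 1) w hw x hx j
  rw [hz, ← MvPolynomial.C_pow, vv_pow_eq_zero hkh, MvPolynomial.C_0, zero_mul]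
  rfl

/-- A cocycle of degree `0` as a compatible family. -/
theorem exists_fam {w : ℤ} (x : (LQ p h (h - 1) w).C 0) (hx : x ∈ (LQ p h (h - 1) w).Z 0) :
    ∃ y : Fam p h w, ∀ j, MvPolynomial.C (y.t j) = (x.1 j).1 := by
  choose t ht using fun j => cob0_surj (x.1 j).1
  have hd : ∀ j, Cob.d 0 (x.1 j).1 = 0 := by
    intro j
    have h1 : (LQ p h (h - 1) w).d 0 x = 0 := hx
    have h2 := congrArg Subtype.val (congrFun (congrArg Subtype.val h1) j)
    exact h2
  refine ⟨⟨t, fun j => ⟨?_, ?_⟩, fun j => cob0_inj ?_⟩, ht⟩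
  · rw [ht]
    exact (x.1 j).2
  · rw [ht]
    exact hd j
  · rw [ht]
    have h1 := congrArg Subtype.val (x.2 j)
    rw [← h1]
    change _ = Cob.mapRing _ 0 (x.1 (j + 1)).1
    rw [← ht (j + 1), Cob.mapRing, MvPolynomial.map_C]

/-- **Vanishing in negative weights** modulo `(v_0, …, v_{k-1})`, `1 ≤ k < h`. -/
theorem van_aux (i : ℕ) : ∀ (h k : ℕ), 1 ≤ k → k + 1 + i = h → Van p h k := by
  induction i with
  | zero =>
    intro h k hk hkh
    obtain rfl : h = k + 1 := by omega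
    refine van_of (by omega) (by omega) fun w hw x hx => ?_
    obtain ⟨D, hD⟩ := exists_ltd p (k + 1) (Nat.succ_ne_zero k)
    obtain ⟨y, hy⟩ := exists_fam (h := k + 1) (w := w) x hx
    refine Subtype.ext (funext fun j => Subtype.ext ?_)
    have h1 := fam_fac D hD hw (by omega) y j
    change Cob.mapRing (QKfac p k (NT p (k + 1) j)) 0 (x.1 j).1 = 0
    rw [← hy j, Cob.mapRing, MvPolynomial.map_C]
    change MvPolynomial.C (QKfac p (k + 1 - 1) (NT p (k + 1) j) (y.t j)) = 0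
    rw [h1, MvPolynomial.C_0]
  | succ i ih =>
    intro h k hk hkh
    refine van_of (by omega) (by omega) fun w hw x hx => ?_
    refine ih h (k + 1) (by omega) (by omega) w hw _ ?_
    rw [Cx.mem_Z, ← ShortEx.q_d, show (LQ p h k w).d 0 x = 0 from hx, map_zero]

theorem van {k : ℕ} (hk : 1 ≤ k) (hkh : k < h) : Van p h k :=
  van_aux (h - (k + 1)) h k hk (by omega)

theorem fin_of_van {X : Cx.{0}} (hX : ∀ x ∈ X.Z 0, x = 0) : X.Fin 0 := by
  refine FinMod.of_finite _ _ ((Set.finite_singleton (0 : X.C 0)).subset fun x hx => ?_)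
  exact hX x hx

/-- **Finiteness** modulo `(v_0, …, v_{k-1})`. -/
theorem fin_quo (hh : h ≠ 0) (hp2 : p ≠ 2) {k : ℕ} (hkh : k ≤ h) (hk : 1 ≤ k) (w : ℤ) :
    (LQ p h k w).Fin 0 := by
  induction hkh using Nat.decreasingInduction generalizing w with
  | self => exact finQ_self p hh w (fun s => fin_lev hp2 (by omega) w s 0) 0
  | of_succ k hkh ih =>
    have ih := ih (by omega)
    have hpos := pow_sub_one_pos p hk
    have key : ∀ (n : ℕ) (w : ℤ), w < n → (LQ p h k w).Fin 0 := by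
      intro n
      induction n with
      | zero => exact fun w hw => fin_of_van (van hk hkh w hw)
      | succ n ihn =>
        intro w hw
        exact (vE p h (by omega) w).fin_mid (ihn _ (by push_cast at hw; linarith)) (ih w)
    exact key (w.toNat + 1) w (by push_cast; linarith [Int.self_le_toNat w])

section transfer

theorem hb1 (p h : ℕ) [Fact p.Prime] (j : ℕ) :
    Function.Bijective (Ideal.Quotient.mk (IK p 1 (NT p h j))) :=
  bijective_mk p (k := 1) (N := NT p h j) (IK_one_NN p h (j + 1))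

theorem wt_d (w : ℤ) (s j : ℕ) (x : (Vale.Agent.P251.I.towerN p h w).C s j) :
    wtEquiv (isLawHom_mk_QK p 1 (NT p h j)) (hb1 p h j) (s + 1) w
        ((Vale.Agent.P251.I.towerN p h w).d s j x) =
      (quoTow p 1 (NT p h) (rT p h) (hrT p h) w).d s j
        (wtEquiv (isLawHom_mk_QK p 1 (NT p h j)) (hb1 p h j) s w x) :=
  Subtype.ext (Cob.mapRing_d (isLawHom_mk_QK p 1 (NT p h j))
    (show Cob.wt (NT p h j) s w from x).1)

theorem wt_r (w : ℤ) (s j : ℕ) (x : (Vale.Agent.P251.I.towerN p h w).C s (j + 1)) :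
    wtEquiv (isLawHom_mk_QK p 1 (NT p h j)) (hb1 p h j) s w
        ((Vale.Agent.P251.I.towerN p h w).r s j x) =
      (quoTow p 1 (NT p h) (rT p h) (hrT p h) w).r s j
        (wtEquiv (isLawHom_mk_QK p 1 (NT p h (j + 1))) (hb1 p h (j + 1)) s w x) := by
  apply Subtype.ext
  change Cob.mapRing _ s (Cob.mapRing _ s (show Cob.wt (NT p h (j + 1)) s w from x).1) =
    Cob.mapRing _ s (Cob.mapRing _ s (show Cob.wt (NT p h (j + 1)) s w from x).1)
  rw [Cob.mapRing_mapRing, Cob.mapRing_mapRing]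
  rfl

theorem fin_one_iff (w : ℤ) (s : ℕ) : (LQ p h 1 w).Fin s ↔
    (limCx (Vale.Agent.P251.I.towerN p h w)).Fin s :=
  ⟨fun H => fin_lim_congr_symm (fun s j => wtEquiv (isLawHom_mk_QK p 1 (NT p h j)) (hb1 p h j) s w)
    (wt_d w) (wt_r w) H,
  fun H => fin_lim_congr (fun s j => wtEquiv (isLawHom_mk_QK p 1 (NT p h j)) (hb1 p h j) s w)
    (wt_d w) (wt_r w) H⟩

end transfer

/-- **`H^0` vanishes in negative weights** if `h ≥ 2`. -/
theorem H0_van (hh : 2 ≤ h) {w : ℤ} (hw : w < 0)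
    (x : (limCx (Vale.Agent.P251.I.towerN p h w)).C 0)
    (hx : x ∈ (limCx (Vale.Agent.P251.I.towerN p h w)).Z 0) : x = 0 := by
  let f := fun j => wtEquiv (isLawHom_mk_QK p 1 (NT p h j)) (hb1 p h j) 0 w
  let y : (LQ p h 1 w).C 0 := ⟨fun j => f j (x.1 j), fun j => by
    exact (wt_r w 0 j (x.1 (j + 1))).symm.trans (congrArg (f j) (x.2 j))⟩
  have hy : y ∈ (LQ p h 1 w).Z 0 := by
    refine Subtype.ext (funext fun j => ?_)
    have h1 : (Vale.Agent.P251.I.towerN p h w).d 0 j (x.1 j) = 0 :=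
      congrFun (congrArg Subtype.val (show _ = _ from hx)) j
    have h2 := wt_d w 0 j (x.1 j)
    rw [h1] at h2
    exact h2.symm.trans (map_zero
      (wtEquiv (isLawHom_mk_QK p 1 (NT p h j)) (hb1 p h j) (0 + 1) w))
  have h3 : y = 0 := van le_rfl (by omega) w hw y hy
  refine Subtype.ext (funext fun j => (f j).injective ?_)
  have h4 : f j (x.1 j) = 0 := congrFun (congrArg Subtype.val h3) j
  rw [h4]
  exact (map_zero (f j)).symm

/-- **`H^0` is finite in every weight.** -/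
theorem H0_fin (hp2 : p ≠ 2) (hh : h ≠ 0) (w : ℤ) :
    (limCx (Vale.Agent.P251.I.towerN p h w)).Fin 0 :=
  (fin_one_iff w 0).1 (fin_quo hh hp2 (by omega) le_rfl w)

end Vale.Agent.P261.H681
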