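import Vale.Agent.P261.H681.Unif
import Vale.Agent.P251.F.LTFinal

/-!
# P261, part B2: finiteness of the cohomology of the cobar complexes of `v_h⁻¹ Laz/(p, I_h^j)`

* `fin_descent`: abstract descent;
* `ZC N s w`, `BC N s w`, `CFin N s w`: cocycles, coboundaries, finiteness for the cobar complex of
  the law ring `N` in weight `w`;
* `cfin_NN`: `H^s(NN p h (j+1))_w` is finite, for all `p` odd, `h ≥ 1`, `j`, `s`, `w`.
-/

set_option linter.unusedSectionVars false

open Finset Function

namespace Vale.Agent.P261.H681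

open Vale.Agent.P251.C Vale.Agent.P251.F LawRing

section abs

variable {G : Type*} [Group G] [TopologicalSpace G] [IsTopologicalGroup G]
  {A : ℕ → Type*} [∀ b, AddCommGroup (A b)] [∀ b, DistribMulAction G (A b)]
  [∀ b, DiscMod G (A b)] (d : ∀ b, A b →+[G] A (b + 1))

/-- The kernels of the differentials. -/
def Kd (b : ℕ) : AddSubgroup (A b) := (d b : A b →+ A (b + 1)).ker

theorem mem_Kd {b : ℕ} {x : A b} : x ∈ Kd d b ↔ d b x = 0 := Iff.rfl

theorem smul_mem_Kd (b : ℕ) (g : G) (a : A b) (ha : a ∈ Kd d b) : g • a ∈ Kd d b := by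
  rw [mem_Kd] at ha ⊢
  rw [map_smul, ha, smul_zero]

instance instActKd (b : ℕ) : DistribMulAction G (Kd d b) := subAct _ (smul_mem_Kd d b)

instance instDiscKd (b : ℕ) : DiscMod G (Kd d b) where
  isOpen_stab x := by
    have : {g : G | g • x = x} = {g : G | g • x.1 = x.1} := by
      ext g
      exact Subtype.ext_iff
    rw [this]
    exact DiscMod.isOpen_stab _

/-- the inclusion -/
def KdInc (b : ℕ) : Kd d b →+[G] A b where
  toFun z := z.1
  map_smul' _ _ := rfl
  map_zero' := rfl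
  map_add' _ _ := rfl

variable (hdd : ∀ b x, d (b + 1) (d b x) = 0)

/-- the differential as a map to the next kernel -/
def KdProj (b : ℕ) : A b →+[G] Kd d (b + 1) where
  toFun x := ⟨d b x, hdd b x⟩
  map_smul' g z := Subtype.ext (map_smul (d b) g z)
  map_zero' := Subtype.ext (map_zero (d b))
  map_add' a b' := Subtype.ext (map_add (d b) a b')

variable (hex : ∀ b x, d (b + 1) x = 0 → ∃ y, d b y = x) (hG : ∀ a b, HZero G (A b) (a + 1))
  (hK : ∀ a, HFin G (Kd d 0) (a + 1))

include hdd hex hG hK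

theorem hfin_Kd (b : ℕ) : ∀ a, HFin G (Kd d b) (a + 1) := by
  induction b with
  | zero => exact hK
  | succ b ih =>
    intro a
    refine HFin.right (KdInc d b) (KdProj d hdd b) Subtype.val_injective ?_ ?_ ?_
      (HFin.of_HZero (hG a b)) (ih (a + 1))
    · intro z
      obtain ⟨y, hy⟩ := hex b z.1 z.2
      exact ⟨y, Subtype.ext hy⟩
    · intro a
      exact Subtype.ext a.2
    · intro x hx
      exact ⟨⟨x, congrArg Subtype.val hx⟩, rfl⟩

/-- **Abstract descent**, finiteness. -/
theorem fin_descent (s : ℕ) (Z W : AddSubgroup (A (s + 1)))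
    (hZ : ∀ z ∈ Z, d (s + 1) z = 0 ∧ ∀ g : G, g • z = z)
    (hW : ∀ y : A s, (∀ g : G, g • y = y) → d s y ∈ W) : FinQ Z W := by
  have h1 := HFin.right_zero (KdInc d s) (KdProj d hdd s) Subtype.val_injective (by
      intro z
      obtain ⟨y, hy⟩ := hex s z.1 z.2
      exact ⟨y, Subtype.ext hy⟩) (fun a => Subtype.ext a.2)
      (fun x hx => ⟨⟨x, congrArg Subtype.val hx⟩, rfl⟩) (hfin_Kd d hdd hex hG hK s 0)
      (Z.addSubgroupOf (Kd d (s + 1))) (W.addSubgroupOf (Kd d (s + 1)))
      (fun c hc g => Subtype.ext ((hZ c.1 hc).2 g)) (fun b hb => hW b hb)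
  refine FinQ.map h1 (Kd d (s + 1)).subtype ?_ (fun b hb => hb)
  intro z hz
  refine ⟨⟨z, (hZ z hz).1⟩, hz, ?_⟩
  change z - z ∈ W
  rw [sub_self]
  exact W.zero_mem

end abs

section cobar

variable (N : Type) [CommRing N] [LawRing N]

/-- The cocycles of weight `w` of the cobar complex. -/
noncomputable def ZC (s : ℕ) (w : ℤ) : AddSubgroup (Cob N s) where
  carrier := {z | Cob.IsWt w z ∧ Cob.d s z = 0}
  zero_mem' := ⟨Cob.isWt_zero w, map_zero _⟩
  add_mem' {a b} ha hb := ⟨ha.1.add hb.1, by rw [map_add, ha.2, hb.2, add_zero]⟩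
  neg_mem' {a} ha := ⟨ha.1.neg, by rw [map_neg, ha.2, neg_zero]⟩

/-- The coboundaries of weight `w` of the cobar complex. -/
noncomputable def BC : ∀ (s : ℕ) (_ : ℤ), AddSubgroup (Cob N s)
  | 0, _ => ⊥
  | s + 1, w =>
    { carrier := {z | ∃ y : Cob N s, Cob.IsWt w y ∧ Cob.d s y = z}
      zero_mem' := ⟨0, Cob.isWt_zero w, map_zero _⟩
      add_mem' := by
        rintro _ _ ⟨y, hy, rfl⟩ ⟨y', hy', rfl⟩
        exact ⟨y + y', hy.add hy', map_add _ _ _⟩
      neg_mem' := by
        rintro _ ⟨y, hy, rfl⟩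
        exact ⟨-y, hy.neg, map_neg _ _⟩ }

/-- `H^s(N)_w` is finite. -/
def CFin (s : ℕ) (w : ℤ) : Prop := FinQ (ZC N s w) (BC N s w)

variable {N}

theorem mem_ZC {s : ℕ} {w : ℤ} {z : Cob N s} : z ∈ ZC N s w ↔ Cob.IsWt w z ∧ Cob.d s z = 0 :=
  Iff.rfl

theorem mem_BC_succ {s : ℕ} {w : ℤ} {z : Cob N (s + 1)} :
    z ∈ BC N (s + 1) w ↔ ∃ y : Cob N s, Cob.IsWt w y ∧ Cob.d s y = z := Iff.rfl

theorem mem_BC_zero {w : ℤ} {z : Cob N 0} : z ∈ BC N 0 w ↔ z = 0 := AddSubgroup.mem_bot

end cobar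

section tower

variable {p h : ℕ} [Fact p.Prime] {G : Type} [Group G] [TopologicalSpace G]
  [IsTopologicalGroup G] [CompactSpace G] (X : TTower p h G)

/-- **Descent**, finiteness: if `H^s(G; Prim (T j) w)` is finite for all `s ≥ 1` and the primitives
themselves are finite, then `H^s(NN p h (j+1))_w` is finite. -/
theorem cfin_of_tower (j : ℕ) (w : ℤ) [Finite (X.M w j)]
    (hM : ∀ (M : Type) [AddCommGroup M] [DistribMulAction G M] [DiscMod G M] [Finite M],
      (∀ m : M, p • m = 0) → ∀ s, HFin G M s) (hp : ∀ x : X.T j, p • x = 0) (s : ℕ) :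
    CFin (NN p h (j + 1)) s w := by
  classical
  have hinj : ∀ n, Function.Injective (Cob.mapRing (X.ι j) n) := by
    intro n y y' hy
    have h0 : ∀ y : Cob (NN p h (j + 1)) n, Cob.mapRing (X.ι j) n y =
        ∑ i, MvPolynomial.C (X.b j i) * Cob.mapRing (X.ι j) n (if i = X.i₀ then y else 0) := by
      intro y
      rw [Finset.sum_eq_single X.i₀]
      · rw [if_pos rfl, (X.inv j).one, MvPolynomial.C_1, one_mul]
      · intro i _ hi
        rw [if_neg hi, map_zero, mul_zero]
      · intro hi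
        exact absurd (Finset.mem_univ X.i₀) hi
    rw [h0 y, h0 y'] at hy
    have h3 := congrFun ((X.inv j).uniq_cob _ _ hy) X.i₀
    simpa using h3
  have hιinv : ∀ n (z : Cob (NN p h (j + 1)) n) (γ : G),
      γ • Cob.mapRing (X.ι j) n z = Cob.mapRing (X.ι j) n z := by
    intro n z γ
    rw [smul_eq_self_iff]
    intro m
    rw [Cob.mapRing, MvPolynomial.coeff_map, (X.inv j).fix]
  rcases s with _ | s
  · -- degree zero: the cocycles embed in the primitives
    refine FinQ.of_finite ?_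
    refine Set.Finite.of_finite_image
      (f := fun z : Cob (NN p h (j + 1)) 0 => Cob.mapRing (X.ι j) 0 z) ?_ (hinj 0).injOn
    refine ((Set.finite_univ (α := X.M w j)).image fun x => x.1.1).subset ?_
    rintro _ ⟨z, hz, rfl⟩
    exact ⟨⟨⟨Cob.mapRing (X.ι j) 0 z, Cob.IsWt.mapRing (X.ι_law j) hz.1⟩, by
      change Cob.d 0 (Cob.mapRing (X.ι j) 0 z) = 0
      rw [← Cob.mapRing_d (X.ι_law j), hz.2, map_zero]⟩, Set.mem_univ _, rfl⟩
  · -- positive degrees
    let d' : ∀ b, Cob.wt (X.T j) b w →+[G] Cob.wt (X.T j) (b + 1) w := fun b => wtD G (X.T j) b w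
    have hKfin : Finite (Kd (A := fun b => Cob.wt (X.T j) b w) d' 0) := by
      refine Finite.of_injective
        (fun x : Kd (A := fun b => Cob.wt (X.T j) b w) d' 0 =>
          (⟨x.1, congrArg Subtype.val x.2⟩ : X.M w j)) ?_
      intro x y hxy
      exact Subtype.ext (congrArg (fun z : X.M w j => z.1) hxy)
    let I1 : DistribMulAction G (Kd (A := fun b => Cob.wt (X.T j) b w) d' 0) :=
      instActKd (A := fun b => Cob.wt (X.T j) b w) d' 0
    have I2 : DiscMod G (Kd (A := fun b => Cob.wt (X.T j) b w) d' 0) :=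
      instDiscKd (A := fun b => Cob.wt (X.T j) b w) d' 0
    have key := fin_descent (G := G) (A := fun b => Cob.wt (X.T j) b w)
      d' (fun b x => Subtype.ext (Cob.d_d x.1))
      (fun b x hx => ⟨⟨Cob.ctr (X.T j) b x.1, Cob.IsWt.ctr x.2⟩,
        Subtype.ext (Cob.exact_of_framed (congrArg Subtype.val hx))⟩)
      (fun a b => hzero_wt (X.hzero j a) w)
      (fun a => hM _ (fun m => by
        apply Subtype.ext
        apply Subtype.ext
        change p • (m.1.1 : Cob (X.T j) 0) = 0
        ext e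
        rw [MvPolynomial.coeff_smul, hp, MvPolynomial.coeff_zero]) (a + 1)) s
      { carrier := {z | (∀ g : G, g • z = z) ∧ Cob.d (s + 1) z.1 = 0}
        zero_mem' := ⟨fun g => smul_zero g, map_zero _⟩
        add_mem' := fun {a b} ha hb => ⟨fun g => by rw [smul_add, ha.1, hb.1], by
          change Cob.d (s + 1) (a.1 + b.1) = 0
          rw [map_add, ha.2, hb.2, add_zero]⟩
        neg_mem' := fun {a} ha => ⟨fun g => by rw [smul_neg, ha.1], by
          change Cob.d (s + 1) (-a.1) = 0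
          rw [map_neg, ha.2, neg_zero]⟩ }
      { carrier := {z | ∃ y : Cob.wt (X.T j) s w, (∀ g : G, g • y = y) ∧ Cob.d s y.1 = z.1}
        zero_mem' := ⟨0, fun g => smul_zero g, map_zero _⟩
        add_mem' := by
          rintro a b ⟨y, hy, h1⟩ ⟨y', hy', h1'⟩
          refine ⟨y + y', fun g => by rw [smul_add, hy, hy'], ?_⟩
          change Cob.d s (y.1 + y'.1) = a.1 + b.1
          rw [map_add, h1, h1']
        neg_mem' := by
          rintro a ⟨y, hy, h1⟩
          refine ⟨-y, fun g => by rw [smul_neg, hy], ?_⟩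
          change Cob.d s (-y.1) = -a.1
          rw [map_neg, h1] }
      (fun z hz => ⟨Subtype.ext hz.2, hz.1⟩) (fun y hy => ⟨y, hy, rfl⟩)
    -- from `NN` to the invariants
    let f : Cob (NN p h (j + 1)) (s + 1) →+ Cob (X.T j) (s + 1) :=
      (Cob.mapRing (X.ι j) (s + 1)).toAddMonoidHom
    have key' := FinQ.map key (Cob.wt (X.T j) (s + 1) w).subtype
      (Z' := (AddSubgroup.map f (ZC (NN p h (j + 1)) (s + 1) w)))
      (B' := { carrier := {z | ∃ y : Cob (X.T j) s, (∀ g : G, g • y = y) ∧ Cob.IsWt w y ∧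
                Cob.d s y = z}
               zero_mem' := ⟨0, fun g => smul_zero g, Cob.isWt_zero w, map_zero _⟩
               add_mem' := by
                rintro a b ⟨y, hy, hw, h1⟩ ⟨y', hy', hw', h1'⟩
                refine ⟨y + y', fun g => by rw [smul_add, hy, hy'], hw.add hw', ?_⟩
                rw [map_add, h1, h1']
               neg_mem' := by
                rintro a ⟨y, hy, hw, h1⟩
                refine ⟨-y, fun g => by rw [smul_neg, hy], hw.neg, ?_⟩
                rw [map_neg, h1] }) (by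
        rintro _ ⟨z, hz, rfl⟩
        have h7 : Cob.IsWt w (f z) := Cob.IsWt.mapRing (X.ι_law j) hz.1
        refine ⟨(⟨f z, h7⟩ : Cob.wt (X.T j) (s + 1) w), ⟨fun g => Subtype.ext (hιinv _ z g), ?_⟩, ?_⟩
        · change Cob.d (s + 1) (Cob.mapRing (X.ι j) (s + 1) z) = 0
          rw [← Cob.mapRing_d (X.ι_law j), hz.2, map_zero]
        · change f z - f z ∈ _
          rw [sub_self]
          exact AddSubgroup.zero_mem _) (by
        rintro b ⟨y, hy, h1⟩
        exact ⟨y.1, fun g => congrArg Subtype.val (hy g), y.2, h1⟩)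
    refine FinQ.comap f (fun z hz => AddSubgroup.mem_map_of_mem f hz) key' ?_
    rintro z hz ⟨y, hy, -, hdy⟩
    change Cob.d s y = Cob.mapRing (X.ι j) (s + 1) z at hdy
    obtain ⟨c, rfl⟩ := (X.inv j).exist_cob y hy
    have h1 : Cob.d s (∑ i, MvPolynomial.C (X.b j i) * Cob.mapRing (X.ι j) s (c i)) =
        ∑ i, MvPolynomial.C (X.b j i) * Cob.mapRing (X.ι j) (s + 1) (Cob.d s (c i)) := by
      rw [map_sum]
      refine Finset.sum_congr rfl fun i _ => ?_
      rw [Cob.d_const_mul (fun B _ g x => (X.inv j).const B g x i), Cob.mapRing_d (X.ι_law j)]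
    have h2 : Cob.mapRing (X.ι j) (s + 1) z =
        ∑ i, MvPolynomial.C (X.b j i) * Cob.mapRing (X.ι j) (s + 1)
          (if i = X.i₀ then z else 0) := by
      rw [Finset.sum_eq_single X.i₀]
      · rw [if_pos rfl, (X.inv j).one, MvPolynomial.C_1, one_mul]
      · intro i _ hi
        rw [if_neg hi, map_zero, mul_zero]
      · intro hi
        exact absurd (Finset.mem_univ X.i₀) hi
    rw [h1, h2] at hdy
    have h3 := congrFun ((X.inv j).uniq_cob _ _ hdy) X.i₀
    rw [if_pos rfl] at h3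
    refine ⟨Cob.pr (NN p h (j + 1)) s w (c X.i₀), Cob.isWt_pr w _, ?_⟩
    rw [← Cob.pr_d, h3, Cob.pr_eq_self hz.1]

end tower

section final

variable {p h : ℕ} [hp : Fact p.Prime]

namespace LTDfin

open Vale.Agent.P251.F.LTD

variable {k : Type} [Field k] (D : LTD p h k)

theorem finite_EJ (j : ℕ) : Finite (D.EJ j) := by
  have := D.finite
  exact Module.finite_of_finite k

theorem finite_M (w : ℤ) (j : ℕ) : Finite (D.tower.M w j) := by
  have := finite_EJ D j
  exact Finite.of_surjective ((D.coPt j).primMk (D.isCo j) w)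
    ((D.coPt j).primMk_surjective (D.isCo j) w)

theorem p_smul (j : ℕ) (x : D.TT j) : p • x = 0 := by
  rw [nsmul_eq_mul, D.p_eq_zero' (D.kk j), zero_mul]

end LTDfin

/-- **Finiteness of `H^s(v_h⁻¹ Laz/(p, I_h^(j+1)))_w`** for `p` odd and `h ≥ 1`. -/
theorem cfin_NN (hp2 : p ≠ 2) (hh : h ≠ 0) (j s : ℕ) (w : ℤ) : CFin (NN p h (j + 1)) s w := by
  obtain ⟨D⟩ := LTD.exists_galoisField p h hh
  have := D.finite
  have := D.charP
  have := LTDfin.finite_M D w j
  refine cfin_of_tower D.tower j w (fun M _ _ _ _ hM s => ?_) (fun x => LTDfin.p_smul D j x) s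
  exact hfin_virtUnif hp2 (D.honda.virtUnif_sq D.card (Nat.one_le_iff_ne_zero.2 hh)) M hM s

end final

end Vale.Agent.P261.H681
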