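import Vale.Agent.P251.C.LES

/-!
# P261, part B1: finiteness of the cohomology of profinite groups, long exact sequences

* `FinQ Z B`: the classes of the elements of `Z` modulo `B` are finite in number;
* `Zs G M s`, `Bs G M s`: homogeneous cocycles and coboundaries of degree `s` (unaugmented complex,
  `Bs G M 0 = ⊥`);
* `HFin G M s`: `H^s(G; M)` is finite;
* `HFin.left`, `HFin.mid`, `HFin.right`: two out of three.
-/

namespace Vale.Agent.P261.H681

open Vale.Agent.P251.C

section FinQ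

variable {V V' : Type*} [AddCommGroup V] [AddCommGroup V']

/-- The elements of `Z` lie in finitely many classes modulo `B`. -/
def FinQ (Z B : AddSubgroup V) : Prop :=
  ∃ T : Set V, T.Finite ∧ ∀ z ∈ Z, ∃ t ∈ T, z - t ∈ B

theorem FinQ.mono {Z Z' B B' : AddSubgroup V} (h : FinQ Z B) (hZ : Z' ≤ Z) (hB : B ≤ B') :
    FinQ Z' B' := by
  obtain ⟨T, hT, h⟩ := h
  exact ⟨T, hT, fun z hz => by
    obtain ⟨t, ht, h1⟩ := h z (hZ hz)
    exact ⟨t, ht, hB h1⟩⟩

theorem FinQ.of_le {Z B : AddSubgroup V} (h : Z ≤ B) : FinQ Z B :=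
  ⟨{0}, Set.finite_singleton 0, fun z hz => ⟨0, rfl, by rw [sub_zero]; exact h hz⟩⟩

theorem FinQ.of_finite {Z B : AddSubgroup V} (h : (Z : Set V).Finite) : FinQ Z B :=
  ⟨Z, h, fun z hz => ⟨z, hz, by rw [sub_self]; exact B.zero_mem⟩⟩

/-- The representatives can be chosen in `Z`. -/
theorem FinQ.exists_subset {Z B : AddSubgroup V} (h : FinQ Z B) :
    ∃ T : Set V, T.Finite ∧ T ⊆ Z ∧ ∀ z ∈ Z, ∃ t ∈ T, z - t ∈ B := by
  classical
  obtain ⟨T, hT, h⟩ := h
  let c : V → V := fun t => if ht : ∃ z ∈ Z, z - t ∈ B then ht.choose else 0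
  have hc : ∀ t, c t ∈ Z := by
    intro t
    by_cases ht : ∃ z ∈ Z, z - t ∈ B
    · simp only [c, dif_pos ht]
      exact ht.choose_spec.1
    · simp only [c, dif_neg ht]
      exact Z.zero_mem
  refine ⟨c '' T, hT.image c, ?_, fun z hz => ?_⟩
  · rintro _ ⟨t, -, rfl⟩
    exact hc t
  · obtain ⟨t, ht, hzt⟩ := h z hz
    have h1 : ∃ z ∈ Z, z - t ∈ B := ⟨z, hz, hzt⟩
    refine ⟨c t, ⟨t, ht, rfl⟩, ?_⟩
    have h2 : c t - t ∈ B := by
      simp only [c, dif_pos h1]
      exact h1.choose_spec.2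
    have h3 := B.sub_mem hzt h2
    rwa [sub_sub_sub_cancel_right] at h3

/-- In terms of the relative index. -/
theorem finQ_iff {Z B : AddSubgroup V} : FinQ Z B ↔ B.relIndex Z ≠ 0 := by
  constructor
  · intro h
    obtain ⟨T, hT, hTZ, h⟩ := h.exists_subset
    have : Finite T := hT
    have h1 : Finite (Z ⧸ B.addSubgroupOf Z) := by
      refine Finite.of_surjective (fun t : T => ((⟨t.1, hTZ t.2⟩ : Z) : Z ⧸ B.addSubgroupOf Z)) ?_
      intro x
      obtain ⟨z, rfl⟩ := QuotientAddGroup.mk_surjective x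
      obtain ⟨t, ht, hzt⟩ := h z.1 z.2
      refine ⟨⟨t, ht⟩, ?_⟩
      rw [QuotientAddGroup.eq, AddSubgroup.mem_addSubgroupOf]
      change -t + z.1 ∈ B
      rwa [neg_add_eq_sub]
    exact (Nat.card_pos (α := Z ⧸ B.addSubgroupOf Z)).ne'
  · intro h
    have h1 : Finite (Z ⧸ B.addSubgroupOf Z) := Nat.finite_of_card_ne_zero h
    refine ⟨Set.range fun x : Z ⧸ B.addSubgroupOf Z => ((Quotient.out x : Z) : V),
      Set.finite_range _, fun z hz => ⟨_, ⟨((⟨z, hz⟩ : Z) : Z ⧸ B.addSubgroupOf Z), rfl⟩, ?_⟩⟩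
    have h2 : (((Quotient.out ((⟨z, hz⟩ : Z) : Z ⧸ B.addSubgroupOf Z) : Z)) :
        Z ⧸ B.addSubgroupOf Z) = ((⟨z, hz⟩ : Z) : Z ⧸ B.addSubgroupOf Z) := QuotientAddGroup.out_eq' _
    rw [QuotientAddGroup.eq, AddSubgroup.mem_addSubgroupOf] at h2
    change -_ + z ∈ B at h2
    rwa [neg_add_eq_sub] at h2

/-- The middle term of an exact sequence, with an additive relation `R`. -/
theorem FinQ.of_rel {Z B : AddSubgroup V} {Z' B' : AddSubgroup V'} (R : AddSubgroup (V × V'))
    (h1 : ∀ z ∈ Z, ∃ z' ∈ Z', (z, z') ∈ R) (h2 : FinQ Z' B') (K : AddSubgroup V)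
    (hK : ∀ z ∈ Z, ∀ b' ∈ B', (z, b') ∈ R → z ∈ K) (h3 : FinQ K B) : FinQ Z B := by
  classical
  obtain ⟨T', hT', h2⟩ := h2
  obtain ⟨T, hT, h3⟩ := h3
  -- the chosen elements
  let P : V' → V → Prop := fun t' z => z ∈ Z ∧ ∃ w, (z, w) ∈ R ∧ w - t' ∈ B'
  let c : V' → V := fun t' => if ht : ∃ z, P t' z then ht.choose else 0
  refine ⟨(fun q : V' × V => c q.1 + q.2) '' (T' ×ˢ T), (hT'.prod hT).image _, fun z hz => ?_⟩
  obtain ⟨z', hz', hR⟩ := h1 z hz
  obtain ⟨t', ht', hzt⟩ := h2 z' hz'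
  have h4 : ∃ z, P t' z := ⟨z, hz, z', hR, hzt⟩
  have h5 : P t' (c t') := by
    simp only [c, dif_pos h4]
    exact h4.choose_spec
  obtain ⟨hcZ, w, hw, hwt⟩ := h5
  have h6 : z - c t' ∈ K := by
    refine hK _ (Z.sub_mem hz hcZ) (z' - w) ?_ (R.sub_mem hR hw)
    have h7 := B'.sub_mem hzt hwt
    rwa [sub_sub_sub_cancel_right] at h7
  obtain ⟨t, ht, h7⟩ := h3 _ h6
  exact ⟨c t' + t, ⟨(t', t), ⟨ht', ht⟩, rfl⟩, by rwa [← sub_sub]⟩

/-- Injectivity on classes, with an additive relation `R`. -/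
theorem FinQ.of_inj {Z B : AddSubgroup V} {Z' B' : AddSubgroup V'} (R : AddSubgroup (V × V'))
    (h1 : ∀ z ∈ Z, ∃ z' ∈ Z', (z, z') ∈ R) (h2 : FinQ Z' B')
    (hK : ∀ z ∈ Z, ∀ b' ∈ B', (z, b') ∈ R → z ∈ B) : FinQ Z B :=
  FinQ.of_rel R h1 h2 B hK (FinQ.of_le le_rfl)

/-- Injectivity on classes. -/
theorem FinQ.comap {Z B : AddSubgroup V} {Z' B' : AddSubgroup V'} (f : V →+ V')
    (h1 : ∀ z ∈ Z, f z ∈ Z') (h2 : FinQ Z' B') (hK : ∀ z ∈ Z, f z ∈ B' → z ∈ B) : FinQ Z B := by
  let R : AddSubgroup (V × V') :=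
    { carrier := {q | f q.1 = q.2}
      zero_mem' := map_zero f
      add_mem' := fun {a b} ha hb => by
        change f a.1 = a.2 at ha
        change f b.1 = b.2 at hb
        change f (a.1 + b.1) = a.2 + b.2
        rw [map_add, ha, hb]
      neg_mem' := fun {a} ha => by
        change f a.1 = a.2 at ha
        change f (-a.1) = -a.2
        rw [map_neg, ha] }
  refine FinQ.of_inj R (fun z hz => ⟨f z, h1 z hz, rfl⟩) h2 fun z hz b' hb' hR => ?_
  have hR' : f z = b' := hR
  exact hK z hz (by rw [hR']; exact hb')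

/-- A surjection. -/
theorem FinQ.map {Z B : AddSubgroup V} (h : FinQ Z B) {Z' B' : AddSubgroup V'} (f : V →+ V')
    (h1 : ∀ z' ∈ Z', ∃ z ∈ Z, z' - f z ∈ B') (h2 : ∀ b ∈ B, f b ∈ B') : FinQ Z' B' := by
  obtain ⟨T, hT, h⟩ := h
  refine ⟨f '' T, hT.image f, fun z' hz' => ?_⟩
  obtain ⟨z, hz, hzz⟩ := h1 z' hz'
  obtain ⟨t, ht, hzt⟩ := h z hz
  refine ⟨f t, ⟨t, ht, rfl⟩, ?_⟩
  have h3 := B'.add_mem hzz (h2 _ hzt)
  rwa [map_sub, sub_add_sub_cancel] at h3

end FinQ

section defs

variable (G M : Type*) [Group G] [TopologicalSpace G] [AddCommGroup M] [DistribMulAction G M]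

/-- The homogeneous cocycles of degree `s`. -/
def Zs (s : ℕ) : AddSubgroup ((Fin (s + 1) → G) → M) where
  carrier := {F | IsCoch G F ∧ dd F = 0}
  zero_mem' := ⟨IsCoch.zero, dd_zero⟩
  add_mem' {a b} ha hb := ⟨ha.1.add hb.1, by rw [dd_add, ha.2, hb.2, add_zero]⟩
  neg_mem' {a} ha := ⟨ha.1.neg, by rw [dd_neg, ha.2, neg_zero]⟩

/-- The homogeneous coboundaries of degree `s`. -/
def Bs : ∀ s : ℕ, AddSubgroup ((Fin (s + 1) → G) → M)
  | 0 => ⊥
  | s + 1 =>
    { carrier := {F | ∃ Y : (Fin (s + 1) → G) → M, IsCoch G Y ∧ dd Y = F}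
      zero_mem' := ⟨0, IsCoch.zero, dd_zero⟩
      add_mem' := by
        rintro _ _ ⟨Y, hY, rfl⟩ ⟨Y', hY', rfl⟩
        exact ⟨Y + Y', hY.add hY', dd_add _ _⟩
      neg_mem' := by
        rintro _ ⟨Y, hY, rfl⟩
        exact ⟨-Y, hY.neg, dd_neg _⟩ }

/-- `H^s(G; M)` is finite. -/
def HFin (s : ℕ) : Prop := FinQ (Zs G M s) (Bs G M s)

end defs

section basic

variable {G M N : Type*} [Group G] [TopologicalSpace G] [AddCommGroup M] [DistribMulAction G M]
  [AddCommGroup N] [DistribMulAction G N]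

theorem mem_Zs {s : ℕ} {F : (Fin (s + 1) → G) → M} :
    F ∈ Zs G M s ↔ IsCoch G F ∧ dd F = 0 := Iff.rfl

theorem mem_Bs_zero {F : (Fin 1 → G) → M} : F ∈ Bs G M 0 ↔ F = 0 := AddSubgroup.mem_bot

theorem mem_Bs_succ {s : ℕ} {F : (Fin (s + 2) → G) → M} :
    F ∈ Bs G M (s + 1) ↔ ∃ Y : (Fin (s + 1) → G) → M, IsCoch G Y ∧ dd Y = F := Iff.rfl

theorem Bs_le_Zs (s : ℕ) : Bs G M s ≤ Zs G M s := by
  rcases s with _ | s
  · exact bot_le
  · rintro _ ⟨Y, hY, rfl⟩
    exact ⟨hY.dd, dd_dd Y⟩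

/-- Functoriality. -/
theorem Zs_map (u : M →+[G] N) {s : ℕ} {F : (Fin (s + 1) → G) → M} (hF : F ∈ Zs G M s) :
    (fun x => u (F x)) ∈ Zs G N s := by
  refine ⟨hF.1.map u, ?_⟩
  rw [dd_mapG, hF.2]
  funext x
  exact map_zero u

theorem Bs_map (u : M →+[G] N) {s : ℕ} {F : (Fin (s + 1) → G) → M} (hF : F ∈ Bs G M s) :
    (fun x => u (F x)) ∈ Bs G N s := by
  rcases s with _ | s
  · rw [mem_Bs_zero] at hF ⊢
    subst hF
    funext x
    exact map_zero u
  · obtain ⟨Y, hY, rfl⟩ := hF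
    exact ⟨fun x => u (Y x), hY.map u, dd_mapG u Y⟩

theorem HFin.of_HZero {s : ℕ} (h : HZero G M (s + 1)) : HFin G M (s + 1) :=
  FinQ.of_le fun F hF => h F hF.1 hF.2

/-- A cocycle of degree zero is constant. -/
theorem Zs_zero_const {F : (Fin 1 → G) → M} (hF : F ∈ Zs G M 0) (x y : Fin 1 → G) : F x = F y := by
  have h2 := congrFun hF.2 (Fin.cons (x 0) y : Fin 2 → G)
  rw [dd_cons, dd_one, Pi.zero_apply, sub_eq_zero] at h2
  rw [h2]
  congr 1
  funext i
  refine Fin.cases ?_ (fun i => i.elim0) i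
  simp

theorem Zs_zero_inv {F : (Fin 1 → G) → M} (hF : F ∈ Zs G M 0) (x : Fin 1 → G) (g : G) :
    g • F x = F x := by
  rw [← hF.1.equi g x]
  exact Zs_zero_const hF _ _

theorem const_mem_Zs {m : M} (hm : ∀ g : G, g • m = m) : (fun _ => m : (Fin 1 → G) → M) ∈ Zs G M 0 := by
  refine ⟨⟨IsLocallyConstant.const m, fun g _ => (hm g).symm⟩, ?_⟩
  funext x
  simp [dd, Fin.sum_univ_succ]

/-- `H^0(G; M)` is finite if the group of invariants is finite. -/
theorem HFin.zero (h : {m : M | ∀ g : G, g • m = m}.Finite) : HFin G M 0 := by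
  refine ⟨(fun m _ => m) '' {m : M | ∀ g : G, g • m = m}, h.image _, fun F hF => ?_⟩
  refine ⟨fun _ => F fun _ => 1, ⟨F fun _ => 1, fun g => Zs_zero_inv hF _ g, rfl⟩, ?_⟩
  rw [mem_Bs_zero, sub_eq_zero]
  funext x
  exact Zs_zero_const hF _ _

theorem HFin.finite_inv (h : HFin G M 0) : {m : M | ∀ g : G, g • m = m}.Finite := by
  obtain ⟨T, hT, h⟩ := h
  refine (hT.image fun F => F fun _ => (1 : G)).subset fun m hm => ?_
  obtain ⟨t, ht, h1⟩ := h _ (const_mem_Zs hm)
  rw [mem_Bs_zero, sub_eq_zero] at h1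
  exact ⟨t, ht, congrFun h1.symm _⟩

end basic

section les

variable {G : Type*} [Group G] [TopologicalSpace G] [IsTopologicalGroup G]
  {A B C : Type*} [AddCommGroup A] [AddCommGroup B] [AddCommGroup C]
  [DistribMulAction G A] [DistribMulAction G B] [DistribMulAction G C]

/-- Coboundaries lift along surjections. -/
theorem Bs_lift [DiscMod G B] (q : B →+[G] C) (hq : Function.Surjective q) {s : ℕ}
    {F : (Fin (s + 1) → G) → C} (hF : F ∈ Bs G C s) :
    ∃ Y ∈ Bs G B s, ∀ x, q (Y x) = F x := by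
  rcases s with _ | s
  · rw [mem_Bs_zero] at hF
    subst hF
    exact ⟨0, AddSubgroup.zero_mem _, fun x => map_zero q⟩
  · obtain ⟨Y, hY, rfl⟩ := hF
    obtain ⟨Y', hY', hq'⟩ := hY.lift q hq
    refine ⟨dd Y', ⟨Y', hY', rfl⟩, fun x => ?_⟩
    have h1 := congrFun (dd_mapG q Y') x
    rw [show (fun x => q (Y' x)) = Y from funext hq'] at h1
    exact h1.symm

/-- two out of three, left term -/
theorem HFin.left [DiscMod G B] (i : A →+[G] B) (q : B →+[G] C) (hi : Function.Injective i)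
    (hq : Function.Surjective q) (hq0 : ∀ a, q (i a) = 0)
    (hex : ∀ b, q b = 0 → ∃ a, i a = b) {s : ℕ}
    (hB : HFin G B (s + 1)) (hC : HFin G C s) : HFin G A (s + 1) := by
  -- the kernel of the map to the cohomology of `B`
  let K : AddSubgroup ((Fin (s + 2) → G) → A) :=
    { carrier := {F | F ∈ Zs G A (s + 1) ∧ (fun x => i (F x)) ∈ Bs G B (s + 1)}
      zero_mem' := ⟨AddSubgroup.zero_mem _, by
        have : (fun x : Fin (s + 2) → G => i ((0 : (Fin (s + 2) → G) → A) x)) = 0 := by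
          funext x; exact map_zero i
        rw [this]; exact AddSubgroup.zero_mem _⟩
      add_mem' := fun {F F'} hF hF' => ⟨AddSubgroup.add_mem _ hF.1 hF'.1, by
        have : (fun x : Fin (s + 2) → G => i ((F + F') x)) =
            (fun x => i (F x)) + fun x => i (F' x) := by
          funext x; exact map_add i _ _
        rw [this]; exact AddSubgroup.add_mem _ hF.2 hF'.2⟩
      neg_mem' := fun {F} hF => ⟨AddSubgroup.neg_mem _ hF.1, by
        have : (fun x : Fin (s + 2) → G => i ((-F) x)) = -(fun x => i (F x)) := by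
          funext x; exact map_neg i _
        rw [this]; exact AddSubgroup.neg_mem _ hF.2⟩ }
  let R : AddSubgroup (((Fin (s + 2) → G) → A) × ((Fin (s + 2) → G) → B)) :=
    { carrier := {q | (fun x => i (q.1 x)) = q.2}
      zero_mem' := funext fun x => map_zero i
      add_mem' := fun {a b} ha hb => by
        change (fun x => i (a.1 x)) = a.2 at ha
        change (fun x => i (b.1 x)) = b.2 at hb
        change (fun x => i (a.1 x + b.1 x)) = a.2 + b.2
        rw [← ha, ← hb]
        funext x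
        exact map_add i _ _
      neg_mem' := fun {a} ha => by
        change (fun x => i (a.1 x)) = a.2 at ha
        change (fun x => i (-a.1 x)) = -a.2
        rw [← ha]
        funext x
        exact map_neg i _ }
  refine FinQ.of_rel R (fun z hz => ⟨_, Zs_map i hz, rfl⟩) hB K
    (fun z hz b' hb' hR => ⟨hz, by
      have hR' : (fun x => i (z x)) = b' := hR
      rw [hR']; exact hb'⟩) ?_
  -- the boundary relation
  let R2 : AddSubgroup (((Fin (s + 2) → G) → A) × ((Fin (s + 1) → G) → C)) :=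
    { carrier := {w | ∃ Y : (Fin (s + 1) → G) → B, IsCoch G Y ∧
        (fun x => i (w.1 x)) = dd Y ∧ (fun x => q (Y x)) = w.2}
      zero_mem' := ⟨0, IsCoch.zero, by
        rw [dd_zero]; exact funext fun x => map_zero i, funext fun x => map_zero q⟩
      add_mem' := by
        rintro a b ⟨Y, hY, h1, h2⟩ ⟨Y', hY', h1', h2'⟩
        refine ⟨Y + Y', hY.add hY', ?_, ?_⟩
        · rw [dd_add, ← h1, ← h1']
          exact funext fun x => map_add i _ _
        · change _ = a.2 + b.2
          rw [← h2, ← h2']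
          exact funext fun x => map_add q _ _
      neg_mem' := by
        rintro a ⟨Y, hY, h1, h2⟩
        refine ⟨-Y, hY.neg, ?_, ?_⟩
        · rw [dd_neg, ← h1]
          exact funext fun x => map_neg i _
        · change _ = -a.2
          rw [← h2]
          exact funext fun x => map_neg q _ }
  refine FinQ.of_inj R2 (fun z hz => ?_) hC ?_
  · obtain ⟨hz, Y, hY, hYz⟩ := hz
    refine ⟨fun x => q (Y x), ⟨hY.map q, ?_⟩, ⟨Y, hY, hYz.symm, rfl⟩⟩
    rw [dd_mapG, hYz]
    exact funext fun x => hq0 _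
  · rintro z hz b' hb' ⟨Y, hY, h1, h2⟩
    change (fun x => i (z x)) = dd Y at h1
    change (fun x => q (Y x)) = b' at h2
    obtain ⟨W, hW, hWq⟩ := Bs_lift q hq hb'
    have hWZ := Bs_le_Zs s hW
    obtain ⟨Y', hY', hi'⟩ := IsCoch.of_inj i hi (hY.sub hWZ.1) (fun x => hex _ (by
      rw [Pi.sub_apply, map_sub, hWq, ← h2, sub_self]))
    refine ⟨Y', hY', ?_⟩
    funext x
    apply hi
    have h3 := congrFun (dd_mapG i Y') x
    rw [show (fun x => i (Y' x)) = Y - W from funext hi', dd_sub, hWZ.2, sub_zero, ← h1] at h3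
    exact h3.symm

/-- two out of three, middle term -/
theorem HFin.mid [DiscMod G B] (i : A →+[G] B) (q : B →+[G] C) (hi : Function.Injective i)
    (hq : Function.Surjective q)
    (hex : ∀ b, q b = 0 → ∃ a, i a = b) {s : ℕ}
    (hA : HFin G A s) (hC : HFin G C s) : HFin G B s := by
  let K : AddSubgroup ((Fin (s + 1) → G) → B) :=
    { carrier := {F | F ∈ Zs G B s ∧ (fun x => q (F x)) ∈ Bs G C s}
      zero_mem' := ⟨AddSubgroup.zero_mem _, by
        have : (fun x : Fin (s + 1) → G => q ((0 : (Fin (s + 1) → G) → B) x)) = 0 := by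
          funext x; exact map_zero q
        rw [this]; exact AddSubgroup.zero_mem _⟩
      add_mem' := fun {F F'} hF hF' => ⟨AddSubgroup.add_mem _ hF.1 hF'.1, by
        have : (fun x : Fin (s + 1) → G => q ((F + F') x)) =
            (fun x => q (F x)) + fun x => q (F' x) := by
          funext x; exact map_add q _ _
        rw [this]; exact AddSubgroup.add_mem _ hF.2 hF'.2⟩
      neg_mem' := fun {F} hF => ⟨AddSubgroup.neg_mem _ hF.1, by
        have : (fun x : Fin (s + 1) → G => q ((-F) x)) = -(fun x => q (F x)) := by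
          funext x; exact map_neg q _
        rw [this]; exact AddSubgroup.neg_mem _ hF.2⟩ }
  let R : AddSubgroup (((Fin (s + 1) → G) → B) × ((Fin (s + 1) → G) → C)) :=
    { carrier := {w | (fun x => q (w.1 x)) = w.2}
      zero_mem' := funext fun x => map_zero q
      add_mem' := fun {a b} ha hb => by
        change (fun x => q (a.1 x)) = a.2 at ha
        change (fun x => q (b.1 x)) = b.2 at hb
        change (fun x => q (a.1 x + b.1 x)) = a.2 + b.2
        rw [← ha, ← hb]
        funext x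
        exact map_add q _ _
      neg_mem' := fun {a} ha => by
        change (fun x => q (a.1 x)) = a.2 at ha
        change (fun x => q (-a.1 x)) = -a.2
        rw [← ha]
        funext x
        exact map_neg q _ }
  refine FinQ.of_rel R (fun z hz => ⟨_, Zs_map q hz, rfl⟩) hC K
    (fun z hz b' hb' hR => ⟨hz, by
      have hR' : (fun x => q (z x)) = b' := hR
      rw [hR']; exact hb'⟩) ?_
  let R2 : AddSubgroup (((Fin (s + 1) → G) → B) × ((Fin (s + 1) → G) → A)) :=
    { carrier := {w | w.1 - (fun x => i (w.2 x)) ∈ Bs G B s}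
      zero_mem' := by
        have : ((0 : ((Fin (s + 1) → G) → B) × ((Fin (s + 1) → G) → A)).1 -
            fun x => i ((0 : ((Fin (s + 1) → G) → B) × ((Fin (s + 1) → G) → A)).2 x)) = 0 := by
          funext x
          change (0 : B) - i 0 = 0
          rw [map_zero, sub_zero]
        change _ ∈ Bs G B s
        rw [this]
        exact AddSubgroup.zero_mem _
      add_mem' := fun {a b} ha hb => by
        have := AddSubgroup.add_mem _ ha hb
        change (a.1 + b.1) - (fun x => i (a.2 x + b.2 x)) ∈ Bs G B s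
        convert this using 1
        funext x
        change a.1 x + b.1 x - i (a.2 x + b.2 x) = (a.1 x - i (a.2 x)) + (b.1 x - i (b.2 x))
        rw [map_add]
        abel
      neg_mem' := fun {a} ha => by
        have := AddSubgroup.neg_mem _ ha
        change (-a.1) - (fun x => i (-a.2 x)) ∈ Bs G B s
        convert this using 1
        funext x
        change -a.1 x - i (-a.2 x) = -(a.1 x - i (a.2 x))
        rw [map_neg]
        abel }
  refine FinQ.of_inj R2 (fun z hz => ?_) hA ?_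
  · obtain ⟨hz, hqz⟩ := hz
    obtain ⟨W, hW, hWq⟩ := Bs_lift q hq hqz
    have hWZ := Bs_le_Zs s hW
    obtain ⟨a, ha, hia⟩ := IsCoch.of_inj i hi (hz.1.sub hWZ.1) (fun x => hex _ (by
      rw [Pi.sub_apply, map_sub, hWq, sub_self]))
    refine ⟨a, ⟨ha, ?_⟩, ?_⟩
    · funext x
      apply hi
      have h3 := congrFun (dd_mapG i a) x
      rw [show (fun x => i (a x)) = z - W from funext hia, dd_sub, hWZ.2, hz.2, sub_zero] at h3
      exact h3.symm.trans (map_zero i).symm
    · change z - (fun x => i (a x)) ∈ Bs G B s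
      rw [show (fun x => i (a x)) = z - W from funext hia, sub_sub_cancel]
      exact hW
  · intro z hz b' hb' hR
    have h1 : z - (fun x => i (b' x)) ∈ Bs G B s := hR
    have h2 := AddSubgroup.add_mem _ h1 (Bs_map i hb')
    rwa [sub_add_cancel] at h2

/-- two out of three, right term -/
theorem HFin.right [DiscMod G B] (i : A →+[G] B) (q : B →+[G] C) (hi : Function.Injective i)
    (hq : Function.Surjective q) (hq0 : ∀ a, q (i a) = 0)
    (hex : ∀ b, q b = 0 → ∃ a, i a = b) {s : ℕ}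
    (hB : HFin G B s) (hA : HFin G A (s + 1)) : HFin G C s := by
  -- the kernel of the connecting map
  let K : AddSubgroup ((Fin (s + 1) → G) → C) :=
    { carrier := {F | ∃ Y ∈ Zs G B s, (fun x => q (Y x)) = F}
      zero_mem' := ⟨0, AddSubgroup.zero_mem _, funext fun x => map_zero q⟩
      add_mem' := by
        rintro a b ⟨Y, hY, h1⟩ ⟨Y', hY', h1'⟩
        refine ⟨Y + Y', AddSubgroup.add_mem _ hY hY', ?_⟩
        rw [← h1, ← h1']
        exact funext fun x => map_add q _ _
      neg_mem' := by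
        rintro a ⟨Y, hY, h1⟩
        refine ⟨-Y, AddSubgroup.neg_mem _ hY, ?_⟩
        rw [← h1]
        exact funext fun x => map_neg q _ }
  let R : AddSubgroup (((Fin (s + 1) → G) → C) × ((Fin (s + 2) → G) → A)) :=
    { carrier := {w | ∃ Y : (Fin (s + 1) → G) → B, IsCoch G Y ∧ (fun x => q (Y x)) = w.1 ∧
        dd Y = fun x => i (w.2 x)}
      zero_mem' := ⟨0, IsCoch.zero, funext fun x => map_zero q, by
        rw [dd_zero]; exact funext fun x => (map_zero i).symm⟩
      add_mem' := by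
        rintro a b ⟨Y, hY, h1, h2⟩ ⟨Y', hY', h1', h2'⟩
        refine ⟨Y + Y', hY.add hY', ?_, ?_⟩
        · change _ = a.1 + b.1
          rw [← h1, ← h1']
          exact funext fun x => map_add q _ _
        · rw [dd_add, h2, h2']
          exact funext fun x => (map_add i _ _).symm
      neg_mem' := by
        rintro a ⟨Y, hY, h1, h2⟩
        refine ⟨-Y, hY.neg, ?_, ?_⟩
        · change _ = -a.1
          rw [← h1]
          exact funext fun x => map_neg q _
        · rw [dd_neg, h2]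
          exact funext fun x => (map_neg i _).symm }
  refine FinQ.of_rel R (fun z hz => ?_) hA K ?_ ?_
  · obtain ⟨Y, hY, hYq⟩ := hz.1.lift q hq
    obtain ⟨a, ha, hia⟩ := IsCoch.of_inj i hi hY.dd (fun x => hex _ (by
      have h1 := congrFun (dd_mapG q Y) x
      rw [show (fun x => q (Y x)) = z from funext hYq, hz.2] at h1
      exact h1.symm))
    refine ⟨a, ⟨ha, ?_⟩, ⟨Y, hY, funext hYq, (funext hia).symm⟩⟩
    funext x
    apply hi
    have h3 := congrFun (dd_mapG i a) x
    rw [show (fun x => i (a x)) = dd Y from funext hia, dd_dd] at h3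
    exact h3.symm.trans (map_zero i).symm
  · rintro z hz b' ⟨W, hW, rfl⟩ ⟨Y, hY, h1, h2⟩
    refine ⟨Y - fun x => i (W x), ⟨hY.sub (hW.map i), ?_⟩, ?_⟩
    · rw [dd_sub, dd_mapG, h2, sub_self]
    · change _ = z at h1
      rw [← h1]
      funext x
      rw [Pi.sub_apply, map_sub, hq0, sub_zero]
  · let qq : ((Fin (s + 1) → G) → B) →+ ((Fin (s + 1) → G) → C) :=
      { toFun := fun Y x => q (Y x)
        map_zero' := funext fun x => map_zero q
        map_add' := fun a b => funext fun x => map_add q _ _ }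
    refine FinQ.map hB qq ?_ ?_
    · rintro z' ⟨Y, hY, rfl⟩
      refine ⟨Y, hY, ?_⟩
      have : (fun x => q (Y x)) - qq Y = 0 := sub_self _
      rw [this]
      exact AddSubgroup.zero_mem _
    · intro b hb
      exact Bs_map q hb

/-- The connecting map in degree zero: if `H^1(G; A)` is finite, then the invariants of `C` are
finite modulo the image of the invariants of `B`. -/
theorem HFin.right_zero [DiscMod G B] (i : A →+[G] B) (q : B →+[G] C) (hi : Function.Injective i)
    (hq : Function.Surjective q) (hq0 : ∀ a, q (i a) = 0)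
    (hex : ∀ b, q b = 0 → ∃ a, i a = b) (hA : HFin G A 1) (Z W : AddSubgroup C)
    (hZ : ∀ c ∈ Z, ∀ g : G, g • c = c) (hW : ∀ b : B, (∀ g : G, g • b = b) → q b ∈ W) :
    FinQ Z W := by
  let R : AddSubgroup (C × ((Fin 2 → G) → A)) :=
    { carrier := {w | ∃ Y : (Fin 1 → G) → B, IsCoch G Y ∧ (∀ x, q (Y x) = w.1) ∧
        dd Y = fun x => i (w.2 x)}
      zero_mem' := ⟨0, IsCoch.zero, fun x => map_zero q, by
        rw [dd_zero]; exact funext fun x => (map_zero i).symm⟩
      add_mem' := by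
        rintro a b ⟨Y, hY, h1, h2⟩ ⟨Y', hY', h1', h2'⟩
        refine ⟨Y + Y', hY.add hY', fun x => ?_, ?_⟩
        · rw [Pi.add_apply, map_add, h1, h1']
          rfl
        · rw [dd_add, h2, h2']
          exact funext fun x => (map_add i _ _).symm
      neg_mem' := by
        rintro a ⟨Y, hY, h1, h2⟩
        refine ⟨-Y, hY.neg, fun x => ?_, ?_⟩
        · rw [Pi.neg_apply, map_neg, h1]
          rfl
        · rw [dd_neg, h2]
          exact funext fun x => (map_neg i _).symm }
  refine FinQ.of_inj R (fun z hz => ?_) hA ?_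
  · have hz' : (fun _ => z : (Fin 1 → G) → C) ∈ Zs G C 0 := const_mem_Zs (hZ z hz)
    obtain ⟨Y, hY, hYq⟩ := hz'.1.lift q hq
    obtain ⟨a, ha, hia⟩ := IsCoch.of_inj i hi hY.dd (fun x => hex _ (by
      have h1 := congrFun (dd_mapG q Y) x
      rw [show (fun x => q (Y x)) = fun _ => z from funext hYq, hz'.2] at h1
      exact h1.symm))
    refine ⟨a, ⟨ha, ?_⟩, ⟨Y, hY, hYq, (funext hia).symm⟩⟩
    funext x
    apply hi
    have h3 := congrFun (dd_mapG i a) x
    rw [show (fun x => i (a x)) = dd Y from funext hia, dd_dd] at h3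
    exact h3.symm.trans (map_zero i).symm
  · rintro z hz b' ⟨V, hV, rfl⟩ ⟨Y, hY, h1, h2⟩
    have h4 : (Y - fun x => i (V x)) ∈ Zs G B 0 := by
      refine ⟨hY.sub (hV.map i), ?_⟩
      rw [dd_sub, dd_mapG, h2, sub_self]
    have h5 := hW _ (Zs_zero_inv h4 fun _ => 1)
    rw [Pi.sub_apply, map_sub, hq0, sub_zero, h1] at h5
    exact h5

end les

end Vale.Agent.P261.H681
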