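import Mathlib.RingTheory.PowerSeries.Derivative
import Mathlib.RingTheory.PowerSeries.Order
import Mathlib.RingTheory.PowerSeries.Trunc
import Vale.Agent.P251.F.EndHonda

/-!
# P261: substitutions fixing a power series are isolated

Let `y` be a nonconstant power series over a finite field. There is `J` such that the only `σ`
with `y(σ) = y` and `σ ≡ X` modulo `X^J` is `X`.
-/

set_option linter.unusedSectionVars false

namespace Vale.Agent.P261.H681

open PowerSeries Vale.Agent.P251.F

section taylor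

variable {R : Type*} [CommRing R]

theorem hasSubst_X_add {d : R⟦X⟧} (hd : constantCoeff d = 0) :
    HasSubst (X + d : R⟦X⟧) :=
  HasSubst.of_constantCoeff_zero' (by rw [map_add, constantCoeff_X, hd, add_zero])

theorem X_dvd_X_add {d : R⟦X⟧} (hd : constantCoeff d = 0) : X ∣ X + d := by
  rw [X_dvd_iff, map_add, constantCoeff_X, hd, add_zero]

/-- Expansion of first order, for polynomials. -/
theorem taylor_poly (P : Polynomial R) {d : R⟦X⟧} (hd : constantCoeff d = 0) :
    ∃ r : R⟦X⟧, (subst (X + d) (P : R⟦X⟧) : R⟦X⟧) =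
      (P : R⟦X⟧) + derivative R (P : R⟦X⟧) * d + r * d ^ 2 := by
  obtain ⟨r, hr⟩ := Polynomial.binomExpansion (P.map (algebraMap R R⟦X⟧)) X d
  refine ⟨r, ?_⟩
  have h1 : ∀ Q : Polynomial R, (Q.map (algebraMap R R⟦X⟧)).eval X = (Q : R⟦X⟧) := by
    intro Q
    rw [Polynomial.eval_map_algebraMap]
    have := subst_coe (R := R) (HasSubst.X' (R := R)) Q
    rw [← this, X_subst]
  rw [subst_coe (hasSubst_X_add hd), derivative_coe]
  rw [Polynomial.derivative_map, h1, h1, Polynomial.eval_map_algebraMap] at hr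
  exact hr

/-- Expansion of first order. -/
theorem taylor_mod (y : R⟦X⟧) {d : R⟦X⟧} (hd : constantCoeff d = 0) (N : ℕ) :
    ∃ r : R⟦X⟧, X ^ N ∣ (subst (X + d) y : R⟦X⟧) - (y + derivative R y * d + r * d ^ 2) := by
  obtain ⟨r, hr⟩ := taylor_poly (trunc (N + 1) y) hd
  refine ⟨r, ?_⟩
  have h0 := eq_X_pow_mul_shift_add_trunc (N + 1) y
  set z : R⟦X⟧ := PowerSeries.mk fun i => coeff (i + (N + 1)) y with hz
  set P : R⟦X⟧ := ((trunc (N + 1) y : Polynomial R) : R⟦X⟧) with hP
  have h1 : (subst (X + d) y : R⟦X⟧) = (X + d) ^ (N + 1) * subst (X + d) z +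
      (P + derivative R P * d + r * d ^ 2) := by
    rw [← hr]
    conv_lhs => rw [h0]
    rw [subst_add (hasSubst_X_add hd), subst_mul (hasSubst_X_add hd),
      subst_pow (hasSubst_X_add hd), subst_X (hasSubst_X_add hd)]
  have h2 : derivative R y = X ^ N * (((N + 1 : ℕ) : R⟦X⟧) * z + X * derivative R z) +
      derivative R P := by
    have h5 := congrArg (derivative R) h0
    rw [map_add, Derivation.leibniz, derivative_pow, derivative_X, smul_eq_mul, smul_eq_mul,
      Nat.add_sub_cancel, pow_succ] at h5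
    rw [h5]
    ring
  have h3 : y = X ^ (N + 1) * z + P := h0
  have h4 : (subst (X + d) y : R⟦X⟧) - (y + derivative R y * d + r * d ^ 2) =
      (X + d) ^ (N + 1) * subst (X + d) z - X ^ N * (X * z +
        (((N + 1 : ℕ) : R⟦X⟧) * z + X * derivative R z) * d) := by
    rw [h1, h2]
    linear_combination -h3
  rw [h4]
  refine dvd_sub (Dvd.dvd.mul_right ?_ _) (Dvd.intro _ rfl)
  exact (pow_dvd_pow X (Nat.le_succ N)).trans (pow_dvd_pow_of_dvd (X_dvd_X_add hd) _)

end taylor

theorem charP_powerSeries (R : Type*) [CommRing R] (p : ℕ) [CharP R p] : CharP R⟦X⟧ p :=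
  charP_of_injective_ringHom (f := (C : R →+* R⟦X⟧)) C_injective p

section isol

variable {k : Type*} [Field k]

/-- Isolation, separable case. -/
theorem isol_of_derivative {y : k⟦X⟧} (hy : derivative k y ≠ 0) :
    ∃ J : ℕ, ∀ d : k⟦X⟧, constantCoeff d = 0 → (subst (X + d) y : k⟦X⟧) = y → X ^ J ∣ d →
      d = 0 := by
  refine ⟨(derivative k y).order.toNat + 1, fun d hd h hJ => ?_⟩
  by_contra hd0
  set e := (derivative k y).order.toNat with he
  have he' : (derivative k y).order = (e : ℕ∞) := (coe_toNat_order hy).symm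
  set m := d.order.toNat with hm
  have hm' : d.order = (m : ℕ∞) := (coe_toNat_order hd0).symm
  have hem : e + 1 ≤ m := by
    have h1 : ((e + 1 : ℕ) : ℕ∞) ≤ d.order := by
      refine nat_le_order _ _ fun i hi => ?_
      exact X_pow_dvd_iff.1 hJ i hi
    rw [hm'] at h1
    exact_mod_cast h1
  obtain ⟨r, hr⟩ := taylor_mod y hd (e + m + 1)
  rw [h] at hr
  have h2 : X ^ (e + m + 1) ∣ (derivative k y + r * d) * d := by
    have h3 := (dvd_neg).2 hr
    convert h3 using 1
    ring
  have h4 : ((e + m + 1 : ℕ) : ℕ∞) ≤ ((derivative k y + r * d) * d).order :=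
    nat_le_order _ _ fun i hi => X_pow_dvd_iff.1 h2 i hi
  have h5 : (derivative k y + r * d).order = (e : ℕ∞) := by
    have h6 : (m : ℕ∞) ≤ (r * d).order := by
      rw [order_mul, hm']
      exact le_add_self
    have h7 : (e : ℕ∞) < (r * d).order :=
      lt_of_lt_of_le (by exact_mod_cast (Nat.lt_of_succ_le hem)) h6
    rw [order_add_of_order_ne _ _ (by rw [he']; exact h7.ne), he', inf_eq_left.2 h7.le]
  rw [order_mul, h5, hm'] at h4
  have h8 : e + m + 1 ≤ e + m := by exact_mod_cast h4
  omega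

variable (p : ℕ) [hp : Fact p.Prime] [CharP k p]

/-- A series with vanishing derivative over a perfect field of characteristic `p` is a `p`-th
power. -/
theorem exists_pow_of_derivative [Finite k] {y : k⟦X⟧} (hy : derivative k y = 0) :
    ∃ z : k⟦X⟧, y = z ^ p := by
  obtain ⟨g, hg⟩ := exists_expand_of_derivative_eq_zero p y hy
  have hs : Function.Surjective (frobenius k p) :=
    Finite.injective_iff_surjective.1 (frobenius_inj k p)
  choose f hf using hs
  refine ⟨PowerSeries.mk fun n => f (coeff n g), ?_⟩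
  have h1 : PowerSeries.map (frobenius k p) (PowerSeries.mk fun n => f (coeff n g)) = g := by
    ext n
    rw [coeff_map, coeff_mk, hf]
  rw [Vale.Agent.P251.F.pow_p_eq (p := p), h1, hg, expand_apply]

include p in
/-- **Isolation.** -/
theorem isol [Finite k] {y : k⟦X⟧} (hy : y - C (constantCoeff y) ≠ 0) :
    ∃ J : ℕ, ∀ d : k⟦X⟧, constantCoeff d = 0 → (subst (X + d) y : k⟦X⟧) = y → X ^ J ∣ d →
      d = 0 := by
  have := charP_powerSeries k p
  induction hn : (y - C (constantCoeff y)).order.toNat using Nat.strong_induction_on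
    generalizing y with
  | _ n ih =>
  by_cases h : derivative k y = 0
  · obtain ⟨z, rfl⟩ := exists_pow_of_derivative p h
    have h1 : z ^ p - C (constantCoeff (z ^ p)) = (z - C (constantCoeff z)) ^ p := by
      rw [sub_pow_char, map_pow, map_pow]
    rw [h1] at hy hn
    have hz : z - C (constantCoeff z) ≠ 0 := fun h2 => hy (by rw [h2, zero_pow hp.out.ne_zero])
    have h2 : ((z - C (constantCoeff z)) ^ p).order.toNat =
        p * (z - C (constantCoeff z)).order.toNat := by
      rw [order_pow]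
      obtain ⟨m, hm⟩ : ∃ m : ℕ, (z - C (constantCoeff z)).order = (m : ℕ∞) :=
        ⟨_, (coe_toNat_order hz).symm⟩
      rw [hm, ENat.toNat_natCast, nsmul_eq_mul, ← Nat.cast_mul, ENat.toNat_natCast]
    have h3 : (z - C (constantCoeff z)).order.toNat ≠ 0 := by
      intro h3
      have h4 := coeff_order hz
      rw [h3, coeff_zero_eq_constantCoeff_apply, map_sub, constantCoeff_C, sub_self] at h4
      exact h4 rfl
    have h4 : (z - C (constantCoeff z)).order.toNat < n := by
      rw [← hn, h2]
      have := hp.out.two_le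
      nlinarith [Nat.pos_of_ne_zero h3]
    obtain ⟨J, hJ⟩ := ih _ h4 hz rfl
    refine ⟨J, fun d hd h5 h6 => hJ d hd ?_ h6⟩
    rw [subst_pow (hasSubst_X_add hd)] at h5
    exact frobenius_inj (k⟦X⟧) p h5
  · exact isol_of_derivative h

include p in
/-- **Isolation.** -/
theorem isol' [Finite k] {y : k⟦X⟧} (hy : y ≠ 0) (hy0 : constantCoeff y = 0) :
    ∃ J : ℕ, ∀ σ : k⟦X⟧, constantCoeff σ = 0 → (subst σ y : k⟦X⟧) = y → X ^ J ∣ σ - X →
      σ = X := by
  obtain ⟨J, hJ⟩ := isol p (y := y) (by rwa [hy0, map_zero, sub_zero])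
  refine ⟨J, fun σ hσ h1 h2 => ?_⟩
  have h3 := hJ (σ - X) (by rw [map_sub, hσ, constantCoeff_X, sub_zero])
    (by rw [add_sub_cancel]; exact h1) h2
  exact sub_eq_zero.1 h3

end isol

end Vale.Agent.P261.H681
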