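import Vale.Agent.P261.H681.H0a
import Vale.Agent.P251.F.GroupSide
import Vale.Agent.P251.F.Height

/-!
# P261: endomorphisms of a formal group over `k⟦X⟧` whose height jumps from `h - 1` to `h`

Let `F` be a formal group over `k⟦X⟧`, generically of height `h - 1`, whose reduction is a Honda
law of height `h ≥ 2`. The endomorphism `p^M S` of the reduction does not lift.
-/

set_option linter.unusedSectionVars false

namespace Vale.Agent.P261.H681

open PowerSeries Vale.Agent.P217 Vale.Agent.P251.F

section baseChange

variable {R S : Type*} [CommRing R] [CommRing S] {F : FormalGroup R} [F.IsComm]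

/-- Base change of endomorphisms. -/
noncomputable def endMap (F : FormalGroup R) [F.IsComm] (φ : R →+* S) :
    EndF F →+* EndF (F.map φ) where
  toFun f := EndF.mk (PowerSeries.map φ f.val) (f.isHom.mapL φ)
  map_zero' := EndF.ext (map_zero _)
  map_one' := EndF.ext (PowerSeries.map_X φ)
  map_add' f g := EndF.ext (by
    rw [EndF.val_mk, EndF.val_add, EndF.val_add, EndF.val_mk, EndF.val_mk]
    exact map_pair_subst φ f.hasSubst g.hasSubst _)
  map_mul' f g := EndF.ext (by
    rw [EndF.val_mk, EndF.val_mul, EndF.val_mul, EndF.val_mk, EndF.val_mk]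
    exact PowerSeries.map_subst g.hasSubst f.val)

theorem endMap_val (φ : R →+* S) (f : EndF F) :
    (endMap F φ f).val = PowerSeries.map φ f.val := rfl

end baseChange

section order

variable {R : Type*} [CommRing R] [IsDomain R]

/-- The order of a composite. -/
theorem order_subst' {f g : R⟦X⟧} (hf : constantCoeff f = 0) (hg : g ≠ 0) :
    PowerSeries.order (subst f g : R⟦X⟧) = g.order.toNat • f.order := by
  have hf' : HasSubst f := HasSubst.of_constantCoeff_zero' hf
  have h1 : X ^ g.order.toNat * divXPowOrder g = g := X_pow_order_mul_divXPowOrder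
  have h2 : constantCoeff (subst f (divXPowOrder g) : R⟦X⟧) ≠ 0 := by
    have h3 : constantCoeff (divXPowOrder g) ≠ 0 := by
      rw [constantCoeff_divXPowOrder]
      exact coeff_order hg
    have h4 : divXPowOrder g = C (constantCoeff (divXPowOrder g)) +
        (divXPowOrder g - C (constantCoeff (divXPowOrder g))) := by ring
    rw [h4, subst_add hf', map_add, subst_C]
    have h5 : constantCoeff (subst f (divXPowOrder g - C (constantCoeff (divXPowOrder g))) :
        R⟦X⟧) = 0 := constantCoeff_subst_eq_zero hf _ (by rw [map_sub, constantCoeff_C, sub_self])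
    rw [h5, add_zero]
    exact h3
  have h6 : PowerSeries.order (subst f (divXPowOrder g) : R⟦X⟧) = 0 := by
    by_contra h7
    exact h2 (order_ne_zero_iff_constCoeff_eq_zero.1 h7)
  conv_lhs => rw [← h1]
  rw [subst_mul hf', subst_pow hf', subst_X hf', order_mul, order_pow, h6, add_zero]

variable {F : FormalGroup R} [F.IsComm]

theorem order_val_pow {f : EndF F} {m : ℕ} (hm : f.val.order = (m : ℕ∞)) (i : ℕ) :
    PowerSeries.order (f ^ i).val = ((m ^ i : ℕ) : ℕ∞) := by
  induction i with
  | zero => rw [pow_zero, pow_zero, EndF.val_one, order_X, Nat.cast_one]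
  | succ i ih =>
    have h1 : (f ^ i).val ≠ 0 := by
      rw [← order_finite_iff_ne_zero, ih]
      exact ENat.natCast_lt_top _
    rw [pow_succ, EndF.val_mul, order_subst' f.constantCoeff_val h1, ih, hm, ENat.toNat_natCast,
      nsmul_eq_mul, ← Nat.cast_mul, pow_succ]

end order

section lift

variable {p h : ℕ} [hp : Fact p.Prime] {k : Type*} [Field k] [CharP k p]
  {F : FormalGroup k⟦X⟧} [F.IsComm]

/-- Reduction of endomorphisms is injective if the `p`-series of the reduction is `x ^ (p ^ h)`
and the `p`-series of `F` starts in degree at least `2`. -/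
theorem endMap_injective (hv : ∀ n < 2, coeff n (multSeries F p) = 0)
    (hm : multSeries (F.map (constantCoeff (R := k))) p = X ^ (p ^ h)) :
    Function.Injective (endMap F (constantCoeff (R := k))) := by
  rw [injective_iff_map_eq_zero]
  intro g hg
  have hg' : PowerSeries.map (constantCoeff (R := k)) g.val = 0 := congrArg EndF.val hg
  have key : ∀ a n, X ^ (a + 1) ∣ coeff n g.val := by
    intro a
    induction a with
    | zero =>
      intro n
      rw [zero_add, pow_one, X_dvd_iff, ← coeff_map, hg', map_zero]
    | succ a ih =>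
      choose c hc using ih
      let g₁ : (k⟦X⟧)⟦X⟧ := PowerSeries.mk c
      have h1 : g.val = C (X ^ (a + 1)) * g₁ := by
        ext1 n
        rw [coeff_C_mul, coeff_mk, hc]
      obtain ⟨P, hP⟩ : X ^ 2 ∣ multSeries F p := X_pow_dvd_iff.2 hv
      have hs : HasSubst (multSeries F p) :=
        HasSubst.of_constantCoeff_zero' (constantCoeff_multSeries F p)
      have h2 : C (X ^ (a + 1)) * (subst (multSeries F p) g₁ : (k⟦X⟧)⟦X⟧) =
          C (X ^ (a + 1)) * (C (X ^ (a + 1)) * (g₁ ^ 2 * subst g.val P)) := by
        have h3 := subst_multSeries g.isHom p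
        rw [h1, subst_mul hs, subst_C] at h3
        refine h3.trans ?_
        rw [← h1, hP, subst_mul g.hasSubst, subst_pow g.hasSubst, subst_X g.hasSubst]
        nth_rewrite 1 [h1]
        ring
      have hne : (C (X ^ (a + 1)) : (k⟦X⟧)⟦X⟧) ≠ 0 := by
        rw [Ne, map_eq_zero_iff _ C_injective]
        exact pow_ne_zero _ X_ne_zero
      have h4 := mul_left_cancel₀ hne h2
      have h5 := congrArg (PowerSeries.map (constantCoeff (R := k))) h4
      have e1 : PowerSeries.map (constantCoeff (R := k)) (subst (multSeries F p) g₁ : (k⟦X⟧)⟦X⟧) =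
          subst (PowerSeries.map (constantCoeff (R := k)) (multSeries F p))
            (PowerSeries.map (constantCoeff (R := k)) g₁) := PowerSeries.map_subst hs g₁
      rw [map_mul, map_C, map_pow, constantCoeff_X, zero_pow (Nat.succ_ne_zero a), map_zero,
        zero_mul, e1, map_multSeries, hm] at h5
      have h6 : PowerSeries.map (constantCoeff (R := k)) g₁ = 0 := by
        ext1 n
        have h7 := congrArg (coeff (p ^ h * n)) h5
        rw [coeff_subst_X_pow (pow_ne_zero _ hp.out.ne_zero), if_pos (dvd_mul_right _ _),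
          Nat.mul_div_cancel_left _ (pow_pos hp.out.pos _), map_zero, Algebra.algebraMap_self,
          RingHom.id_apply] at h7
        rw [h7, map_zero]
      intro n
      have h8 := congrArg (coeff n) h6
      rw [coeff_map, map_zero, coeff_mk, ← X_dvd_iff] at h8
      rw [hc, pow_succ]
      exact mul_dvd_mul_left _ h8
  refine EndF.ext ?_
  ext n i
  rw [EndF.val_zero, map_zero, map_zero]
  exact X_pow_dvd_iff.1 (key i n) i (Nat.lt_succ_self i)

/-- **The endomorphism `p^M S` does not lift.** -/
theorem no_lift (hh : 2 ≤ h) (hv : ∀ n < p ^ (h - 1), coeff n (multSeries F p) = 0)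
    (hv1 : coeff (p ^ (h - 1)) (multSeries F p) ≠ 0)
    (hH : HondaOver p h (F.map (constantCoeff (R := k)))) (M : ℕ) (g : EndF F)
    (hg : endMap F (constantCoeff (R := k)) g =
      ((p ^ M : ℕ) : EndF (F.map (constantCoeff (R := k)))) * hH.D.S) : False := by
  have h2 : 2 ≤ p ^ (h - 1) := hp.out.two_le.trans (Nat.le_self_pow (by omega) p)
  have hinj := endMap_injective (F := F) (p := p) (fun n hn => hv n (by omega)) hH.mult
  have h3 : g ^ h = ((p : EndF F)) ^ (M * h + 1) := by
    apply hinj
    rw [map_pow, hg, map_pow, map_natCast, ((Nat.cast_commute (p ^ M) hH.D.S)).mul_pow,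
      ← hH.p_eq, Nat.cast_pow, ← pow_mul, pow_succ]
  have h4 : PowerSeries.order ((p : EndF F)).val = ((p ^ (h - 1) : ℕ) : ℕ∞) := by
    rw [EndF.val_natCast, order_eq_nat]
    exact ⟨hv1, hv⟩
  have h5 := order_val_pow h4 (M * h + 1)
  rw [← h3] at h5
  have h6 : g.val ≠ 0 := by
    intro h6
    have h7 : g = 0 := EndF.ext h6
    rw [h7, zero_pow (by omega), EndF.val_zero, order_zero] at h5
    exact ENat.top_ne_natCast _ h5
  have h7 := order_val_pow (coe_toNat_order h6).symm h
  rw [h7] at h5
  have h8 : g.val.order.toNat ^ h = (p ^ (h - 1)) ^ (M * h + 1) := by exact_mod_cast h5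
  rw [← pow_mul] at h8
  obtain ⟨a, -, ha⟩ := (Nat.dvd_prime_pow hp.out).1
    (show g.val.order.toNat ∣ p ^ ((h - 1) * (M * h + 1)) from
      h8 ▸ dvd_pow_self _ (by omega))
  rw [ha, ← pow_mul] at h8
  have h9 := Nat.pow_right_injective hp.out.two_le h8
  have h10 : h ∣ (h - 1) * (M * h + 1) := h9 ▸ dvd_mul_left h a
  rw [mul_add, mul_one] at h10
  have h11 : h ∣ (h - 1) * (M * h) := Dvd.intro_left _ (by rw [mul_assoc])
  have h12 := (Nat.dvd_add_right h11).1 h10
  have := Nat.le_of_dvd (by omega) h12
  omega

end lift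

end Vale.Agent.P261.H681
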