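import Vale.Agent.P261.H681.H0a
import Vale.Agent.P251.F.LTCyc

/-!
# P261: automorphisms of the Honda law act on the one-parameter deformation over `k⟦X⟧`

For a Lubin–Tate datum with `v_{i+1}(FU) = X_i` let `FX` be the law over `k⟦X⟧` with
`v_i = 0` for `i < h - 1` and `v_{h-1} = X`. Every automorphism `γ` of its reduction `H` gives a
pair `(σ, g)`, `σ ∈ X k⟦X⟧`, `g` an invertible series over `k⟦X⟧` reducing to `γ`, with
`g • FX(σ) = FX`; `σ` is close to `X` if `γ` is close to `1`.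
-/

set_option linter.unusedSectionVars false

namespace Vale.Agent.P261.H681

open PowerSeries Vale.Agent.P217 Vale.Agent.P251.F

section ring

variable (k : Type) [Field k]

/-- `k⟦X⟧ / (X ^ (j + 1))` -/
noncomputable abbrev RX (j : ℕ) : Type := k⟦X⟧ ⧸ Ideal.span {(X : k⟦X⟧) ^ (j + 1)}

/-- the projection -/
noncomputable abbrev pr (j : ℕ) : k⟦X⟧ →+* RX k j := Ideal.Quotient.mk _

variable {k}

theorem pr_eq_zero_iff {j : ℕ} {x : k⟦X⟧} : pr k j x = 0 ↔ X ^ (j + 1) ∣ x := by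
  rw [Ideal.Quotient.eq_zero_iff_mem, Ideal.mem_span_singleton]

theorem pr_eq_iff {j : ℕ} {x y : k⟦X⟧} : pr k j x = pr k j y ↔ X ^ (j + 1) ∣ x - y := by
  rw [← sub_eq_zero, ← map_sub, pr_eq_zero_iff]

theorem ext_pr {x y : k⟦X⟧} (h : ∀ j, pr k j x = pr k j y) : x = y := by
  ext n
  have h1 := pr_eq_iff.1 (h n)
  rw [X_pow_dvd_iff] at h1
  have h2 := h1 n (Nat.lt_succ_self n)
  rwa [map_sub, sub_eq_zero] at h2

theorem exists_lim (a : ∀ j, RX k j)
    (ha : ∀ j (b : k⟦X⟧), pr k (j + 1) b = a (j + 1) → pr k j b = a j) :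
    ∃ x : k⟦X⟧, ∀ j, pr k j x = a j := by
  choose b hb using fun j => Ideal.Quotient.mk_surjective (a j)
  have h1 : ∀ j, X ^ (j + 1) ∣ b (j + 1) - b j := fun j =>
    pr_eq_iff.1 ((ha j _ (hb (j + 1))).trans (hb j).symm)
  have h2 : ∀ n m, coeff n (b (n + m)) = coeff n (b n) := by
    intro n m
    induction m with
    | zero => rfl
    | succ m ih =>
      rw [← ih]
      have h3 := X_pow_dvd_iff.1 (h1 (n + m)) n (by omega)
      rw [map_sub, sub_eq_zero] at h3
      exact h3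
  refine ⟨PowerSeries.mk fun n => coeff n (b n), fun j => ?_⟩
  rw [← hb j]
  refine pr_eq_iff.2 (X_pow_dvd_iff.2 fun n hn => ?_)
  obtain ⟨m, rfl⟩ := Nat.exists_eq_add_of_le (Nat.lt_succ_iff.1 hn)
  rw [map_sub, coeff_mk, h2 n m, sub_self]

theorem isUnit_of_pr {x : k⟦X⟧} (h : IsUnit (pr k 0 x)) : IsUnit x := by
  obtain ⟨b, hb⟩ := h.exists_right_inv
  obtain ⟨b, rfl⟩ := Ideal.Quotient.mk_surjective b
  have h1 : pr k 0 (x * b) = pr k 0 1 := by rw [map_mul, hb, map_one]
  have h2 := pr_eq_iff.1 h1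
  rw [zero_add, pow_one, X_dvd_iff, map_sub, map_mul, map_one, sub_eq_zero] at h2
  rw [PowerSeries.isUnit_iff_constantCoeff]
  exact IsUnit.of_mul_eq_one _ h2

/-- limits of invertible series -/
theorem exists_lim_inv (a : ∀ j, InvSeries (RX k j))
    (ha : ∀ j n (b : k⟦X⟧), pr k (j + 1) b = (a (j + 1)).c n → pr k j b = (a j).c n) :
    ∃ g : InvSeries k⟦X⟧, ∀ j, InvSeries.map (pr k j) g = a j := by
  choose x hx using fun n => exists_lim (fun j => (a j).c n) fun j b hb => ha j n b hb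
  refine ⟨InvSeries.ofCoeff x (isUnit_of_pr ?_), fun j => ?_⟩
  · rw [hx]
    exact (a 0).isUnit
  · refine InvSeries.ext_c fun n => ?_
    rw [InvSeries.c_map, InvSeries.c_ofCoeff, hx]

theorem law_ext_pr {F G : Law k⟦X⟧} (h : ∀ j, F.map (pr k j) = G.map (pr k j)) : F = G := by
  refine Law.ext_ps (MvPowerSeries.ext fun n => ext_pr fun j => ?_)
  have h1 := congrArg (fun F : Law _ => MvPowerSeries.coeff n F.ps) (h j)
  simpa only [Law.map_ps, MvPowerSeries.coeff_map] using h1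

/-- the residue map -/
noncomputable def resX (j : ℕ) : RX k j →+* k := Ideal.Quotient.lift _ (constantCoeff (R := k)) (by
  intro x hx
  rw [Ideal.mem_span_singleton] at hx
  obtain ⟨y, rfl⟩ := hx
  rw [map_mul, map_pow, constantCoeff_X, zero_pow (Nat.succ_ne_zero j), zero_mul])

theorem resX_comp_pr (j : ℕ) : (resX j).comp (pr k j) = constantCoeff (R := k) :=
  Ideal.Quotient.lift_comp_mk _ _ _

end ring

/-- Lubin–Tate data with `v_{i+1} = X_i`. -/
theorem exists_ltd (p h : ℕ) [hp : Fact p.Prime] (hh : h ≠ 0) :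
    ∃ D : LTD p h (GaloisField p h), ∀ i : Fin (h - 1),
      vv p (i + 1) D.FU = MvPolynomial.X i := by
  obtain ⟨Γ, hΓ, honda, card, -⟩ := exists_honda_galoisField p h (Nat.pos_of_ne_zero hh)
  set k := GaloisField p h
  let H : Law k := ⟨Γ.map (algebraMap (ZMod p) (GaloisField p h)), inferInstance⟩
  have honda : HondaOver p h H.toFG := honda
  have hk : (p : k) = 0 := natCast_eq_zero_of_mult hh honda.mult
  have hP : (p : MvPolynomial (Fin (h - 1)) k) = 0 := by
    rw [← map_natCast (MvPolynomial.C : k →+* MvPolynomial (Fin (h - 1)) k), hk, map_zero]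
  let S : Set ℕ := {i | i < h}
  let u : ℕ → MvPolynomial (Fin (h - 1)) k := fun i =>
    if hi : i - 1 < h - 1 then MvPolynomial.X ⟨i - 1, hi⟩ else 0
  have hu : ∀ i : Fin (h - 1), u (i + 1) = MvPolynomial.X i := by
    intro i
    have : (i : ℕ) + 1 - 1 < h - 1 := by omega
    simp only [u, dif_pos this]
    congr 1
  have hvv : ∀ i : Fin (h - 1), vv p (i + 1) (deform hP H S u) = MvPolynomial.X i := by
    intro i
    rw [vv_deform_of_mem hP H S u (i := (i : ℕ) + 1) (show (i : ℕ) + 1 < h by omega)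
      (Nat.succ_ne_zero _), hu]
  refine ⟨⟨H, deform hP H S u, hh, card, honda, ?_, ?_, ?_⟩, hvv⟩
  · rw [Ih_eq_span hP, MvPolynomial.idealOfVars]
    congr 2
    funext i
    exact hvv i
  · rw [deform_map_eq_map hP H S u MvPolynomial.constantCoeff]
    · have : (MvPolynomial.constantCoeff : MvPolynomial (Fin (h - 1)) k →+* k).comp
          (algebraMap k (MvPolynomial (Fin (h - 1)) k)) = RingHom.id k := by
        ext a
        exact MvPolynomial.constantCoeff_C _ a
      rw [this, Law.map_id]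
    · intro i hi hi0
      rw [vv_of_mult_lt honda.mult hi, map_zero, map_zero]
      simp only [u]
      split_ifs
      · exact MvPolynomial.constantCoeff_X _ _
      · exact map_zero _
  · intro ζ hζ
    refine lin_smul_deform hP H S u ζ ?_ ?_
    · rw [InvSeries.smul_eq_iff_isHom]
      exact honda.teich ζ
    · intro i _ hi0
      have h1 : p - 1 ∣ p ^ i - 1 := by
        have := Nat.sub_dvd_pow_sub_pow p 1 i
        rwa [one_pow] at this
      obtain ⟨m, hm⟩ := h1
      rw [← map_pow, hm, pow_mul, ← Units.val_pow_eq_pow_val, hζ, Units.val_one, one_pow,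
        map_one, one_mul]

section def1

variable {p h : ℕ} [hp : Fact p.Prime] {k : Type} [Field k] (D : LTD p h k)

/-- the map `k[X_0, …, X_{h-2}] → k⟦X⟧`, `X_{h-2} ↦ X`, `X_i ↦ 0` otherwise -/
noncomputable def evX (h : ℕ) (k : Type) [Field k] :
    MvPolynomial (Fin (h - 1)) k →ₐ[k] k⟦X⟧ :=
  MvPolynomial.aeval fun i => if (i : ℕ) + 2 = h then X else 0

theorem evX_X (i : Fin (h - 1)) :
    evX h k (MvPolynomial.X i) = if (i : ℕ) + 2 = h then X else 0 := MvPolynomial.aeval_X _ _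

/-- the law over `k⟦X⟧` -/
noncomputable def FX : Law k⟦X⟧ := D.FU.map (evX h k : MvPolynomial (Fin (h - 1)) k →+* k⟦X⟧)

theorem constantCoeff_comp_evX : (constantCoeff (R := k)).comp
    (evX h k : MvPolynomial (Fin (h - 1)) k →+* k⟦X⟧) = MvPolynomial.constantCoeff := by
  refine MvPolynomial.ringHom_ext (fun a => ?_) (fun i => ?_)
  · rw [RingHom.comp_apply, MvPolynomial.constantCoeff_C]
    change constantCoeff (evX h k (algebraMap k _ a)) = a
    rw [AlgHom.commutes]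
    exact constantCoeff_C a
  · rw [RingHom.comp_apply, MvPolynomial.constantCoeff_X]
    change constantCoeff (evX h k (MvPolynomial.X i)) = 0
    rw [evX_X]
    split_ifs
    · exact constantCoeff_X
    · exact map_zero _

theorem FX_map_constantCoeff : (FX D).map (constantCoeff (R := k)) = D.H := by
  rw [FX, Law.map_map, constantCoeff_comp_evX, D.red]

/-- the map `E_j → k⟦X⟧ / (X ^ (j + 1))` -/
noncomputable def qX (h : ℕ) (k : Type) [Field k] (j : ℕ) : EE k (h - 1) j →+* RX k j :=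
  Ideal.Quotient.lift _ ((pr k j).comp (evX h k : MvPolynomial (Fin (h - 1)) k →+* k⟦X⟧)) (by
    intro x hx
    have h1 : (MvPolynomial.idealOfVars (Fin (h - 1)) k).map
        (evX h k : MvPolynomial (Fin (h - 1)) k →+* k⟦X⟧) ≤ Ideal.span {X} := by
      rw [MvPolynomial.idealOfVars, Ideal.map_span, Ideal.span_le]
      rintro _ ⟨_, ⟨i, rfl⟩, rfl⟩
      change evX h k (MvPolynomial.X i) ∈ _
      rw [evX_X]
      split_ifs
      · exact Ideal.mem_span_singleton_self _
      · exact Ideal.zero_mem _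
    have h2 := Ideal.mem_map_of_mem (evX h k : MvPolynomial (Fin (h - 1)) k →+* k⟦X⟧) hx
    rw [Ideal.map_pow] at h2
    have h3 := Ideal.pow_right_mono h1 (j + 1) h2
    rw [Ideal.span_singleton_pow] at h3
    rw [RingHom.comp_apply]
    exact Ideal.Quotient.eq_zero_iff_mem.2 h3)

theorem qX_comp_mk (j : ℕ) : (qX h k j).comp (EE.mk k (h - 1) j) =
    (pr k j).comp (evX h k : MvPolynomial (Fin (h - 1)) k →+* k⟦X⟧) :=
  Ideal.Quotient.lift_comp_mk _ _ _

theorem qX_mk (j : ℕ) (x : MvPolynomial (Fin (h - 1)) k) :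
    qX h k j (EE.mk k (h - 1) j x) = pr k j (evX h k x) := RingHom.congr_fun (qX_comp_mk j) x

theorem FE_map_qX (j : ℕ) : (D.FE j).map (qX h k j) = (FX D).map (pr k j) := by
  rw [LTD.FE, Law.map_map, qX_comp_mk, FX, Law.map_map]

theorem resX_comp_qX (j : ℕ) : (resX j).comp (qX h k j) = EE.π k (h - 1) j := by
  refine Ideal.Quotient.ringHom_ext ?_
  have h1 : (EE.π k (h - 1) j).comp (Ideal.Quotient.mk _) = MvPolynomial.constantCoeff :=
    EE.π_comp_mk k (h - 1) j
  have h2 : (qX h k j).comp (Ideal.Quotient.mk _) = _ := qX_comp_mk (h := h) (k := k) j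
  rw [h1, RingHom.comp_assoc, h2, ← RingHom.comp_assoc, resX_comp_pr, constantCoeff_comp_evX]

theorem qX_red (j : ℕ) (x : EE k (h - 1) (j + 1)) (b : k⟦X⟧)
    (hb : pr k (j + 1) b = qX h k (j + 1) x) :
    pr k j b = qX h k j (EE.red k (h - 1) (Nat.le_succ j) x) := by
  obtain ⟨x, rfl⟩ := Ideal.Quotient.mk_surjective x
  have h1 := qX_mk (h := h) (k := k) (j + 1) x
  rw [h1, pr_eq_iff] at hb
  change _ = qX h k j (EE.red k (h - 1) (Nat.le_succ j) (EE.mk k (h - 1) (j + 1) x))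
  rw [EE.red_mk, qX_mk, pr_eq_iff]
  exact (pow_dvd_pow X (Nat.le_succ (j + 1))).trans hb

variable (hD : ∀ i : Fin (h - 1), vv p (i + 1) D.FU = MvPolynomial.X i)

include hD in
theorem vv_FX_lt {i : ℕ} (hi : i < h - 1) : vv p i (FX D) = 0 := by
  rcases i with _ | i
  · rw [vv_zero]
    exact D.p_eq_zero' (C : k →+* k⟦X⟧)
  · rw [FX, vv_map, hD ⟨i, by omega⟩]
    change evX h k (MvPolynomial.X _) = 0
    rw [evX_X, if_neg]
    change ¬ (i + 2 = h)
    omega

include hD in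
theorem vv_FX (hh : 2 ≤ h) : vv p (h - 1) (FX D) = X := by
  obtain ⟨i, rfl⟩ : ∃ i, h = i + 2 := ⟨h - 2, by omega⟩
  change vv p (i + 1) _ = X
  rw [FX, vv_map, hD ⟨i, by omega⟩]
  change evX (i + 2) k (MvPolynomial.X _) = X
  rw [evX_X, if_pos rfl]

include hD in
theorem vv_FE (j : ℕ) (i : Fin (h - 1)) :
    vv p (i + 1) (D.FE j) = EE.mk k (h - 1) j (MvPolynomial.X i) := by
  rw [LTD.FE, vv_map, hD]

end def1

section pair

variable {p h : ℕ} [hp : Fact p.Prime] {k : Type} [Field k] (D : LTD p h k)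
  (hD : ∀ i : Fin (h - 1), vv p (i + 1) D.FU = MvPolynomial.X i)

/-- the series of `γ` over `E_j` -/
noncomputable def sj (j : ℕ) (γ : D.GG) : InvSeries (D.EJ j) := (D.coPt j).ser (D.sm j γ)

theorem sj_smul (j : ℕ) (γ : D.GG) :
    sj D j γ • (D.FE j).map (D.phiA j γ : D.EJ j →+* D.EJ j) = D.FE j :=
  (D.isCo j).ser_smul (LawAction.isLawHom γ)

theorem phiA_red (j : ℕ) (γ : D.GG) (x : D.EJ (j + 1)) :
    EE.red k (h - 1) (Nat.le_succ j) (D.phiA (j + 1) γ x) =
      D.phiA j γ (EE.red k (h - 1) (Nat.le_succ j) x) :=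
  RingHom.congr_fun ((D.coPt j).phi_nat (D.coPt (j + 1)) (D.redT (Nat.le_succ j))
    (EE.red k (h - 1) (Nat.le_succ j) : D.EJ (j + 1) →+* D.EJ j)
    (D.redT_comp_inc (Nat.le_succ j)) (D.map_redT_ser (Nat.le_succ j))
    (D.redT_comp_sm (Nat.le_succ j) γ)) x

theorem sj_red (j : ℕ) (γ : D.GG) :
    InvSeries.map (EE.red k (h - 1) (Nat.le_succ j) : D.EJ (j + 1) →+* D.EJ j)
      (sj D (j + 1) γ) = sj D j γ :=
  (D.coPt j).ser_nat (D.coPt (j + 1)) (D.redT (Nat.le_succ j))
    (EE.red k (h - 1) (Nat.le_succ j) : D.EJ (j + 1) →+* D.EJ j)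
    (D.redT_comp_inc (Nat.le_succ j)) (D.map_redT_ser (Nat.le_succ j))
    (D.redT_comp_sm (Nat.le_succ j) γ)

/-- the last variable -/
noncomputable def xl (h : ℕ) (hh : 2 ≤ h) (k : Type) [Field k] (j : ℕ) : EE k (h - 1) j :=
  EE.mk k (h - 1) j (MvPolynomial.X ⟨h - 2, by omega⟩)

theorem evX_last (hh : 2 ≤ h) : evX h k (MvPolynomial.X ⟨h - 2, by omega⟩) = X := by
  rw [evX_X, if_pos]
  change h - 2 + 2 = h
  omega

theorem xl_zero (hh : 2 ≤ h) : xl h hh k 0 = 0 := by
  have h1 : xl h hh k 0 ∈ EE.m k (h - 1) 0 := by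
    rw [EE.m_eq_span]
    exact Ideal.subset_span ⟨_, rfl⟩
  have h2 : EE.m k (h - 1) 0 = ⊥ := (pow_one _).symm.trans (EE.m_pow k (h - 1) 0)
  rwa [h2, Ideal.mem_bot] at h1

variable (hh : 2 ≤ h)

/-- The data attached to `γ`. -/
structure IsPair (γ : D.GG) (σ : k⟦X⟧) (g : InvSeries k⟦X⟧) : Prop where
  zero : constantCoeff σ = 0
  sig : ∀ j, pr k j σ = qX h k j (D.phiA j γ (xl h hh k j))
  ser : ∀ j, InvSeries.map (pr k j) g = InvSeries.map (qX h k j) (sj D j γ)

theorem exists_isPair (γ : D.GG) : ∃ σ g, IsPair D hh γ σ g := by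
  obtain ⟨σ, hσ⟩ := exists_lim (fun j => qX h k j (D.phiA j γ (xl h hh k j))) (by
    intro j b hb
    rw [qX_red j _ b hb, phiA_red]
    rfl)
  obtain ⟨g, hg⟩ := exists_lim_inv (fun j => InvSeries.map (qX h k j) (sj D j γ)) (by
    intro j n b hb
    rw [InvSeries.c_map] at hb
    rw [qX_red j _ b hb, InvSeries.c_map, ← sj_red D j γ, InvSeries.c_map]
    rfl)
  refine ⟨σ, g, ?_, hσ, hg⟩
  have h1 := hσ 0
  rw [xl_zero, map_zero, map_zero, pr_eq_zero_iff, zero_add, pow_one, X_dvd_iff] at h1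
  exact h1

variable {D hh} {γ : D.GG} {σ : k⟦X⟧} {g : InvSeries k⟦X⟧}

/-- The reduction of `g` is `γ`. -/
theorem IsPair.map_ser (P : IsPair D hh γ σ g) :
    InvSeries.map (constantCoeff (R := k)) g = γ.toInv := by
  have h1 := congrArg (InvSeries.map (resX (k := k) 0)) (P.ser 0)
  rw [InvSeries.map_map, InvSeries.map_map, resX_comp_pr, resX_comp_qX] at h1
  rw [h1]
  exact D.map_π_ser γ

/-- the substitution -/
noncomputable def IsPair.phi (P : IsPair D hh γ σ g) : k⟦X⟧ →+* k⟦X⟧ :=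
  (substAlgHom (HasSubst.of_constantCoeff_zero' P.zero) : k⟦X⟧ →ₐ[k] k⟦X⟧).toRingHom

theorem IsPair.phi_apply (P : IsPair D hh γ σ g) (x : k⟦X⟧) : P.phi x = subst σ x :=
  congrFun (coe_substAlgHom (R := k) (HasSubst.of_constantCoeff_zero' P.zero)) x

theorem IsPair.phi_C (P : IsPair D hh γ σ g) (c : k) : P.phi (C c) = C c := by
  rw [P.phi_apply]
  exact subst_C c

theorem IsPair.phi_X (P : IsPair D hh γ σ g) : P.phi X = σ := by
  rw [P.phi_apply, subst_X (HasSubst.of_constantCoeff_zero' P.zero)]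

include hD in
/-- The variables `X_i`, `i < h - 2`, are mapped to zero. -/
theorem qX_phiA (j : ℕ) (γ : D.GG) (i : Fin (h - 1)) (hi : (i : ℕ) + 2 < h) :
    qX h k j (D.phiA j γ (EE.mk k (h - 1) j (MvPolynomial.X i))) = 0 := by
  have h1 := congrArg (Law.map (qX h k j)) (sj_smul D j γ)
  rw [InvSeries.map_smul, FE_map_qX] at h1
  have h2 : ((D.FE j).map (D.phiA j γ : D.EJ j →+* D.EJ j)).map (qX h k j) =
      (InvSeries.map (qX h k j) (sj D j γ))⁻¹ • (FX D).map (pr k j) := by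
    rw [← h1, inv_smul_smul]
  have h3 : ∀ l < h - 1, vv p l ((FX D).map (pr k j)) = 0 := by
    intro l hl
    rw [vv_map, vv_FX_lt D hD hl, map_zero]
  have h4 := (vv_smul_of_zero p (h - 1) _ (InvSeries.map (qX h k j) (sj D j γ))⁻¹ h3).1
    (i + 1) (by omega)
  rw [← h2, vv_map, vv_map, vv_FE D hD] at h4
  exact h4

include hD in
/-- **The pair is an automorphism of the deformation.** -/
theorem IsPair.smul (P : IsPair D hh γ σ g) : g • (FX D).map P.phi = FX D := by
  refine law_ext_pr fun j => ?_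
  have h1 : ((pr k j).comp P.phi).comp (evX h k : MvPolynomial (Fin (h - 1)) k →+* k⟦X⟧) =
      ((qX h k j).comp (D.phiA j γ : D.EJ j →+* D.EJ j)).comp (EE.mk k (h - 1) j) := by
    refine MvPolynomial.ringHom_ext (fun a => ?_) (fun i => ?_)
    · change pr k j (P.phi (evX h k (algebraMap k _ a))) =
        qX h k j (D.phiA j γ (EE.mk k (h - 1) j (algebraMap k _ a)))
      rw [AlgHom.commutes]
      have h2 : P.phi (algebraMap k k⟦X⟧ a) = algebraMap k k⟦X⟧ a := P.phi_C a
      have h3 : D.phiA j γ (EE.mk k (h - 1) j (algebraMap k _ a)) =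
          EE.mk k (h - 1) j (algebraMap k _ a) := (D.phiA j γ).commutes a
      rw [h2, h3, qX_mk, AlgHom.commutes]
    · change pr k j (P.phi (evX h k (MvPolynomial.X i))) =
        qX h k j (D.phiA j γ (EE.mk k (h - 1) j (MvPolynomial.X i)))
      by_cases hi : (i : ℕ) + 2 = h
      · have h2 : i = ⟨h - 2, by omega⟩ := Fin.ext (by change (i : ℕ) = h - 2; omega)
        rw [h2, evX_last hh, P.phi_X, P.sig]
        rfl
      · rw [evX_X, if_neg hi, map_zero, map_zero, qX_phiA hD j γ i (by omega)]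
  have h2 : ((FX D).map P.phi).map (pr k j) =
      ((D.FE j).map (D.phiA j γ : D.EJ j →+* D.EJ j)).map (qX h k j) := by
    rw [FX, LTD.FE, Law.map_map, Law.map_map, Law.map_map, Law.map_map, h1]
  rw [InvSeries.map_smul, P.ser j, h2, ← InvSeries.map_smul, sj_smul, FE_map_qX]

/-- **Continuity.** -/
theorem exists_congr_sigma (D : LTD p h k) (hh : 2 ≤ h) (J : ℕ) :
    ∃ m : ℕ, ∀ γ ∈ AutF.congr D.H.toFG m, ∀ (σ : k⟦X⟧) (g : InvSeries k⟦X⟧),
      IsPair D hh γ σ g → X ^ J ∣ σ - X := by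
  have h1 : IsOpen (MulAction.stabilizer D.GG (D.inc J (xl h hh k J)) : Set D.GG) :=
    Vale.Agent.P251.C.DiscMod.isOpen_stab _
  obtain ⟨m, hm⟩ := AutF.exists_congr_le h1
  refine ⟨m, fun γ hγ σ g P => ?_⟩
  have h2 : γ • D.inc J (xl h hh k J) = D.inc J (xl h hh k J) := hm hγ
  have h3 : D.phiA J γ (xl h hh k J) = xl h hh k J := by
    apply (D.coPt J).ι_injective
    have h4 := RingHom.congr_fun (D.comm_sm J γ).comp_ι (xl h hh k J)
    exact h4.symm.trans h2
  have h5 := P.sig J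
  rw [h3, xl, qX_mk, evX_last hh, pr_eq_iff] at h5
  exact (pow_dvd_pow X (Nat.le_succ J)).trans h5

end pair

end Vale.Agent.P261.H681
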