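import Vale.Agent.P261.H681.H0b
import Vale.Agent.P261.H681.H0c

/-!
# P261: no nonconstant element of `k⟦X⟧` is invariant under the automorphism group of the Honda law
-/

set_option linter.unusedSectionVars false

namespace Vale.Agent.P261.H681

open PowerSeries Vale.Agent.P217 Vale.Agent.P251.F

theorem no_lift' {p h : ℕ} [hp : Fact p.Prime] {k : Type*} [Field k] [CharP k p]
    {F : FormalGroup k⟦X⟧} [F.IsComm] (hh : 2 ≤ h)
    (hv : ∀ n < p ^ (h - 1), coeff n (multSeries F p) = 0)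
    (hv1 : coeff (p ^ (h - 1)) (multSeries F p) ≠ 0) {H : FormalGroup k} [H.IsComm]
    (e : F.map (constantCoeff (R := k)) = H) (hH : HondaOver p h H) (M : ℕ) (g : EndF F)
    (hg : PowerSeries.map (constantCoeff (R := k)) g.val =
      (1 + ((p ^ M : ℕ) : EndF H) * hH.D.S).val) : False := by
  subst e
  refine no_lift hh hv hv1 hH M (g - 1) ?_
  rw [map_sub, map_one, sub_eq_iff_eq_add, add_comm]
  exact EndF.ext hg

variable {p h : ℕ} [hp : Fact p.Prime] {k : Type} [Field k] (D : LTD p h k)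
  (hD : ∀ i : Fin (h - 1), vv p (i + 1) D.FU = MvPolynomial.X i)

include hD in
theorem no_invariant (hh : 2 ≤ h) {y : k⟦X⟧} (hy : y ≠ 0) (hy0 : constantCoeff y = 0)
    (hinv : ∀ (γ : D.GG) (σ : k⟦X⟧) (g : InvSeries k⟦X⟧), IsPair D hh γ σ g →
      (subst σ y : k⟦X⟧) = y) : False := by
  haveI := D.charP
  haveI := D.finite
  obtain ⟨J, hJ⟩ := isol' p hy hy0
  obtain ⟨m, hm⟩ := exists_congr_sigma D hh J
  set hH := D.honda
  -- the automorphism `1 + p^m S`
  have h1 : (1 + ((p ^ m : ℕ) : EndF D.H.toFG) * hH.D.S).cf 1 = 1 := by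
    have h2 : hH.D.r (1 + ((p ^ m : ℕ) : EndF D.H.toFG) * hH.D.S) = 1 := by
      rw [map_add, map_one, map_mul, hH.D.r_S, mul_zero, add_zero]
    exact h2
  set γ : D.GG := (1 + ((p ^ m : ℕ) : EndF D.H.toFG) * hH.D.S).toAut (by
    rw [h1]; exact isUnit_one) with hγ
  have h3 : AutF.toEnd γ = 1 + ((p ^ m : ℕ) : EndF D.H.toFG) * hH.D.S := EndF.toAut_toEnd _ _
  have h4 : γ ∈ AutF.congr D.H.toFG (p ^ (h * m + 1)) := by
    rw [hH.mem_congr_iff, h3, add_sub_cancel_left, Nat.cast_pow, hH.p_eq, ← pow_mul, ← pow_succ]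
    exact hH.D.S_pow_mem _
  have h5 : γ ∈ AutF.congr D.H.toFG m := by
    refine Agr.mono ?_ h4
    have h6 : m < p ^ m := Nat.lt_pow_self hp.out.one_lt
    have h7 : p ^ m ≤ p ^ (h * m + 1) := Nat.pow_le_pow_right hp.out.pos (by nlinarith)
    omega
  obtain ⟨σ, g, P⟩ := exists_isPair D hh γ
  have h8 : σ = X := hJ σ P.zero (hinv γ σ g P) (hm γ h5 σ g P)
  have h9 : P.phi = RingHom.id _ := by
    refine RingHom.ext fun x => ?_
    rw [P.phi_apply, h8, X_subst, RingHom.id_apply]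
  have h10 := P.smul hD
  rw [h9, Law.map_id, InvSeries.smul_eq_iff_isHom] at h10
  have h11 : ∀ i < h - 1, vF p (FX D).toFG i = 0 := fun i hi => vv_FX_lt D hD hi
  refine no_lift' hh (fun n hn => coeff_multSeries_lt p (FX D).toFG (h - 1) h11 n hn)
    (H := D.H.toFG) ?_ (congrArg Law.toFG (FX_map_constantCoeff D)) hH m (EndF.mk g.val h10) ?_
  · have h12 := vv_FX D hD hh
    rw [vv] at h12
    rw [h12]
    exact X_ne_zero
  · have h13 := congrArg InvSeries.val P.map_ser
    rw [EndF.val_mk]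
    refine h13.trans ?_
    rfl

end Vale.Agent.P261.H681
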