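import Vale.Agent.P261.H681.H0d
import Vale.Agent.P261.NNWindow

/-!
# P261: primitive elements of negative weight modulo `(v_0, …, v_{h-2})` vanish modulo `v_{h-1}`
-/

set_option linter.unusedSectionVars false

namespace Vale.Agent.P261.H681

open PowerSeries Vale.Agent.P217 Vale.Agent.P251.F LawRing

section prim

variable {T : Type} [CommRing T] [LawRing T]

/-- Primitive elements of weight `w`. -/
structure IsPrim (w : ℤ) (t : T) : Prop where
  wt : Cob.IsWt w (MvPolynomial.C t : Cob T 0)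
  d : Cob.d 0 (MvPolynomial.C t : Cob T 0) = 0

theorem IsPrim.act {t : T} {w : ℤ} (ht : IsPrim w t) {B : Type} [CommRing B] (g : InvSeries B)
    (ψ : T →+* B) : LawRing.act g ψ t = ((g.lead ^ (-w) : Bˣ) : B) * ψ t := by
  have h1 := (CoPt.isWt_C_iff t w).1 ht.wt
  have h2 := (CoPt.d_C_eq_zero_iff t).1 ht.d
  have e2 : g = g.str * InvSeries.lin g.lead := by
    rw [InvSeries.str, inv_mul_cancel_right]
  have e4 : InvSeries.lin g.lead = (InvSeries.lin g.lead⁻¹)⁻¹ := by
    rw [map_inv, inv_inv]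
  conv_lhs => rw [e2]
  rw [LawRing.act_mul, h2 _ _ _ (InvSeries.str_mem _), e4, h1, inv_zpow, zpow_neg]

theorem IsPrim.map {T' : Type} [CommRing T'] [LawRing T'] {φ : T →+* T'} (hφ : IsLawHom φ)
    {t : T} {w : ℤ} (ht : IsPrim w t) : IsPrim w (φ t) where
  wt := by
    have h1 := Cob.IsWt.mapRing hφ ht.wt
    rwa [Cob.mapRing, MvPolynomial.map_C] at h1
  d := by
    have h1 := Cob.mapRing_d hφ (MvPolynomial.C t : Cob T 0)
    rw [ht.d, map_zero, Cob.mapRing, MvPolynomial.map_C] at h1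
    exact h1.symm

end prim

section points

variable {p h : ℕ} [hp : Fact p.Prime] {B : Type} [CommRing B]

theorem epi_QK (k j : ℕ) : LawRing.Epi (QK p k (NT p h j)) :=
  epi_quotient (epi_NN p h (j + 1)) _ (invariant_IK p k (NT p h j))

/-- Points of the quotients. -/
theorem exists_ptQ {k j : ℕ} {F : Law B} (hF : IsTy p h (j + 1) F) (hv : ∀ i < k, vv p i F = 0) :
    ∃ ψ : QK p k (NT p h j) →+* B, (LawRing.law (N := QK p k (NT p h j))).map ψ = F := by
  have h1 : (NN.law p h (j + 1)).map (NN.lift F hF) = F := NN.law_map_lift F hF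
  have h2 : ∀ a ∈ IK p k (NT p h j), NN.lift F hF a = 0 := by
    rw [IK_vanish_iff]
    change Ih p k ((NN.law p h (j + 1)).map (NN.lift F hF)) = ⊥
    rw [h1, Ih, Ideal.span_eq_bot]
    rintro _ ⟨i, hi, rfl⟩
    exact hv i hi
  refine ⟨Ideal.Quotient.lift _ (NN.lift F hF) h2, ?_⟩
  rw [law_QK, Law.map_map, Ideal.Quotient.lift_comp_mk]
  exact h1

end points

section eval

variable {p h : ℕ} [hp : Fact p.Prime] {k : Type} [Field k] (D : LTD p h k)
  (hD : ∀ i : Fin (h - 1), vv p (i + 1) D.FU = MvPolynomial.X i)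

theorem isTy_FXj (j : ℕ) : IsTy p h (j + 1) ((FX D).map (pr k j)) := by
  rw [← FE_map_qX]
  exact (D.isTy_FE j).map _

/-- the transition maps of `k⟦X⟧ / (X ^ (j + 1))` -/
noncomputable def redRX (k : Type) [Field k] (j : ℕ) : RX k (j + 1) →+* RX k j :=
  Ideal.Quotient.factor (by
    rw [Ideal.span_singleton_le_span_singleton]
    exact pow_dvd_pow X (Nat.le_succ (j + 1)))

theorem redRX_comp_pr (j : ℕ) : (redRX k j).comp (pr k (j + 1)) = pr k j :=
  RingHom.ext fun _ => rfl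

/-- the endomorphism of `k⟦X⟧ / (X ^ (j + 1))` induced by a substitution -/
theorem exists_phij {φ : k⟦X⟧ →+* k⟦X⟧} (hφ : X ∣ φ X) (j : ℕ) :
    ∃ φj : RX k j →+* RX k j, φj.comp (pr k j) = (pr k j).comp φ := by
  refine ⟨Ideal.Quotient.lift _ ((pr k j).comp φ) ?_, Ideal.Quotient.lift_comp_mk _ _ _⟩
  intro a ha
  rw [Ideal.mem_span_singleton] at ha
  obtain ⟨b, rfl⟩ := ha
  rw [RingHom.comp_apply, map_mul, map_pow, pr_eq_zero_iff]
  exact Dvd.dvd.mul_right (pow_dvd_pow_of_dvd hφ _) _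

/-- A compatible family of primitive elements modulo `(v_0, …, v_{h-2})`. -/
structure Fam (p h : ℕ) [Fact p.Prime] (w : ℤ) where
  /-- the elements -/
  t : ∀ j, QK p (h - 1) (NT p h j)
  prim : ∀ j, IsPrim w (t j)
  comp : ∀ j, QKmap p (h - 1) (hrT p h j) (t (j + 1)) = t j

include hD in
/-- The value of a family at the law over `k⟦X⟧`. -/
theorem exists_value {w : ℤ} (x : Fam p h w) :
    ∃ e : k⟦X⟧, ∀ (j : ℕ) (ψ : QK p (h - 1) (NT p h j) →+* RX k j),
      (LawRing.law (N := QK p (h - 1) (NT p h j))).map ψ = (FX D).map (pr k j) →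
        ψ (x.t j) = pr k j e := by
  have hv : ∀ (j i : ℕ), i < h - 1 → vv p i ((FX D).map (pr k j)) = 0 := by
    intro j i hi
    rw [vv_map, vv_FX_lt D hD hi, map_zero]
  choose ψ hψ using fun j => exists_ptQ (isTy_FXj D j) (hv j)
  obtain ⟨e, he⟩ := exists_lim (fun j => ψ j (x.t j)) (by
    intro j b hb
    have h1 : (redRX k j).comp (ψ (j + 1)) = (ψ j).comp (QKmap p (h - 1) (hrT p h j)) := by
      apply epi_QK (h - 1) (j + 1)
      rw [← Law.map_map, hψ, Law.map_map, redRX_comp_pr, ← Law.map_map,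
        (isLawHom_QKmap p (h - 1) (hrT p h j)).law, hψ]
    have h2 := congrArg (redRX k j) hb
    have h3 : redRX k j (ψ (j + 1) (x.t (j + 1))) = ψ j (x.t j) := by
      rw [← x.comp j]
      exact RingHom.congr_fun h1 (x.t (j + 1))
    rw [h3] at h2
    exact h2)
  refine ⟨e, fun j ψ' hψ' => ?_⟩
  rw [he j, epi_QK (h - 1) j _ ψ' (ψ j) (hψ'.trans (hψ j).symm)]

include hD in
/-- The value is semi-invariant. -/
theorem value_phi {w : ℤ} (x : Fam p h w) {e : k⟦X⟧}
    (he : ∀ (j : ℕ) (ψ : QK p (h - 1) (NT p h j) →+* RX k j),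
      (LawRing.law (N := QK p (h - 1) (NT p h j))).map ψ = (FX D).map (pr k j) →
        ψ (x.t j) = pr k j e) (hh : 2 ≤ h) {γ : D.GG} {σ : k⟦X⟧} {g : InvSeries k⟦X⟧}
    (P : IsPair D hh γ σ g) : e = ((g.lead ^ (-w) : (k⟦X⟧)ˣ) : k⟦X⟧) * P.phi e := by
  refine ext_pr fun j => ?_
  have hv : ∀ i : ℕ, i < h - 1 → vv p i ((FX D).map (pr k j)) = 0 := by
    intro i hi
    rw [vv_map, vv_FX_lt D hD hi, map_zero]
  obtain ⟨ψ, hψ⟩ := exists_ptQ (isTy_FXj D j) hv
  have hX : X ∣ P.phi X := by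
    rw [P.phi_X, X_dvd_iff, P.zero]
  obtain ⟨φj, hφj⟩ := exists_phij hX j
  have h1 : LawRing.act (InvSeries.map (pr k j) g) (φj.comp ψ) = ψ := by
    apply epi_QK (h - 1) j
    rw [LawRing.law_act, ← Law.map_map, hψ, Law.map_map, hφj, ← Law.map_map,
      ← InvSeries.map_smul, P.smul hD]
  have h2 := (x.prim j).act (InvSeries.map (pr k j) g) (φj.comp ψ)
  rw [h1, he j ψ hψ, RingHom.comp_apply, he j ψ hψ, InvSeries.lead_map] at h2
  have h3 : φj (pr k j e) = pr k j (P.phi e) := RingHom.congr_fun hφj e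
  rw [h2, h3, map_mul, ← map_zpow]
  rfl

include hD in
/-- `φ(X) λ = λ ^ (p ^ (h - 1)) X` -/
theorem phi_X_eq (hh : 2 ≤ h) {γ : D.GG} {σ : k⟦X⟧} {g : InvSeries k⟦X⟧}
    (P : IsPair D hh γ σ g) :
    P.phi X = (g.lead : k⟦X⟧) ^ (p ^ (h - 1) - 1) * X := by
  have h1 : ∀ i < h - 1, vv p i ((FX D).map P.phi) = 0 := by
    intro i hi
    rw [vv_map, vv_FX_lt D hD hi, map_zero]
  have h2 := (vv_smul_of_zero p (h - 1) _ g h1).2
  rw [P.smul hD, vv_map, vv_FX D hD hh] at h2
  have h3 : (g.lead : k⟦X⟧) * P.phi X = (g.lead : k⟦X⟧) * ((g.lead : k⟦X⟧) ^ (p ^ (h - 1) - 1) * X) := by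
    rw [← mul_assoc, ← pow_succ', Nat.sub_add_cancel (Nat.one_le_pow _ _ hp.out.pos)]
    change g.c 0 * P.phi X = g.c 0 ^ _ * X
    rw [← h2, mul_comm]
  exact (g.lead.isUnit.mul_left_cancel h3)

include hD in
/-- **In negative weights the value vanishes at the origin.** -/
theorem value_zero {w : ℤ} (hw : w < 0) (x : Fam p h w) {e : k⟦X⟧}
    (he : ∀ (j : ℕ) (ψ : QK p (h - 1) (NT p h j) →+* RX k j),
      (LawRing.law (N := QK p (h - 1) (NT p h j))).map ψ = (FX D).map (pr k j) →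
        ψ (x.t j) = pr k j e) (hh : 2 ≤ h) : constantCoeff e = 0 := by
  by_contra h0
  obtain ⟨a, rfl⟩ : ∃ a : ℕ, w = -((a : ℤ) + 1) := ⟨(-w - 1).toNat, by omega⟩
  have he0 : e ≠ 0 := fun h1 => h0 (by rw [h1, map_zero])
  refine no_invariant D hD hh (y := e ^ (p ^ (h - 1) - 1) * X ^ (a + 1)) ?_ ?_ ?_
  · exact mul_ne_zero (pow_ne_zero _ he0) (pow_ne_zero _ X_ne_zero)
  · rw [map_mul, map_pow (constantCoeff (R := k)) X, constantCoeff_X, zero_pow (Nat.succ_ne_zero a),
      mul_zero]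
  · intro γ σ g P
    rw [← P.phi_apply, map_mul, map_pow, map_pow, phi_X_eq D hD hh P]
    have h1 := value_phi D hD x he hh P
    rw [neg_neg] at h1
    have h2 : e = (g.lead : k⟦X⟧) ^ (a + 1) * P.phi e := by
      conv_lhs => rw [h1]
      congr 1
    conv_rhs => rw [h2]
    ring

end eval

section level0

variable {p h : ℕ} [hp : Fact p.Prime] {k : Type} [Field k] (D : LTD p h k)

include D in
theorem incR_injective (j : ℕ) : Function.Injective (RJ.incR k p h j) := by
  let _ := D.zalg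
  obtain ⟨I, _, b, i₀, hb⟩ := D.exists_basis
  classical
  rw [injective_iff_map_eq_zero]
  intro n hn
  have h1 := RJ.uniq (p := p) (h := h) (j := j) b (fun i => if i = i₀ then n else 0) (by
    rw [Finset.sum_eq_single i₀]
    · rw [if_pos rfl, hn, mul_zero]
    · intro i _ hi
      rw [if_neg hi, map_zero, mul_zero]
    · intro h2
      exact absurd (Finset.mem_univ _) h2)
  have h2 : (if i₀ = i₀ then n else 0) = 0 := congrFun h1 i₀
  rwa [if_pos rfl] at h2

/-- the injection `NN p h 1 → T_0` -/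
noncomputable def jT : NT p h 0 →+* D.TT 0 := (D.ιR 0).comp (RJ.incR k p h 1)

theorem jT_injective : Function.Injective (jT D) :=
  D.ιR_injective.comp (incR_injective D 1)

theorem law_jT : (LawRing.law (N := NT p h 0)).map (jT D) = LawRing.law (N := D.TT 0) := by
  have h1 := D.law_map_ιR 0
  rw [RJ.law, Law.map_map] at h1
  exact h1

include D in
/-- A primitive element over `NN p h 1` vanishes if its value at `H` vanishes. -/
theorem eq_zero_of_value {w : ℤ} {t : QK p (h - 1) (NT p h 0)} (ht : IsPrim w t)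
    (ψ : QK p (h - 1) (NT p h 0) →+* k)
    (hψ : (LawRing.law (N := QK p (h - 1) (NT p h 0))).map ψ = D.H) (h0 : ψ t = 0) : t = 0 := by
  have hIK : IK p (h - 1) (NT p h 0) = ⊥ :=
    le_bot_iff.1 ((IK_mono p (Nat.sub_le h 1)).trans (IK_NN_one p D.hh).le)
  -- the injection
  let ψ₀ : QK p (h - 1) (NT p h 0) →+* D.TT 0 := Ideal.Quotient.lift _ (jT D) (by
    intro a ha
    rw [hIK, Ideal.mem_bot] at ha
    rw [ha, map_zero])
  have hψ₀ : (LawRing.law (N := QK p (h - 1) (NT p h 0))).map ψ₀ = LawRing.law (N := D.TT 0) := by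
    rw [law_QK, Law.map_map, Ideal.Quotient.lift_comp_mk, law_jT]
  have hinj : Function.Injective ψ₀ := by
    rw [injective_iff_map_eq_zero]
    intro a ha
    obtain ⟨a, rfl⟩ := Ideal.Quotient.mk_surjective a
    have h1 : jT D a = 0 := ha
    rw [(injective_iff_map_eq_zero _).1 (jT_injective D) a h1, map_zero]
  -- the point over `E_0`
  have hpi : Function.Injective (EE.π k (h - 1) 0) := by
    rw [RingHom.injective_iff_ker_eq_bot, EE.ker_π]
    exact (pow_one _).symm.trans (EE.m_pow k (h - 1) 0)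
  let ρ : k →+* D.EJ 0 := algebraMap k _
  have hρ : (EE.π k (h - 1) 0).comp ρ = RingHom.id k := EE.π_comp_algebraMap k (h - 1) 0
  have hH : D.H.map ρ = D.FE 0 := by
    have h1 := congrArg (Law.map ρ) (D.FE_map_π 0)
    rw [← h1, Law.map_map]
    have h2 : ρ.comp (EE.π k (h - 1) 0) = RingHom.id _ := by
      refine RingHom.ext fun a => hpi ?_
      exact RingHom.congr_fun hρ (EE.π k (h - 1) 0 a)
    rw [h2, Law.map_id]
  have h3 : LawRing.act (D.ser 0) (((D.inc 0).comp ρ).comp ψ) = ψ₀ := by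
    apply epi_QK (h - 1) 0
    rw [LawRing.law_act, ← Law.map_map, hψ, ← Law.map_map, hH, hψ₀, D.law_eq]
  have h4 := ht.act (D.ser 0) (((D.inc 0).comp ρ).comp ψ)
  rw [h3, RingHom.comp_apply, h0, map_zero, mul_zero] at h4
  exact (injective_iff_map_eq_zero ψ₀).1 hinj t h4

variable (hD : ∀ i : Fin (h - 1), vv p (i + 1) D.FU = MvPolynomial.X i)

include D hD in
/-- **In negative weights a compatible family of primitive elements modulo `(v_0, …, v_{h-2})`
vanishes modulo `v_{h-1}`.** -/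
theorem fam_fac {w : ℤ} (hw : w < 0) (hh : 2 ≤ h) (x : Fam p h w) (j : ℕ) :
    QKfac p (h - 1) (NT p h j) (x.t j) = 0 := by
  induction j with
  | zero =>
    obtain ⟨e, he⟩ := exists_value D hD x
    have hv : ∀ i : ℕ, i < h - 1 → vv p i ((FX D).map (pr k 0)) = 0 := by
      intro i hi
      rw [vv_map, vv_FX_lt D hD hi, map_zero]
    obtain ⟨ψ, hψ⟩ := exists_ptQ (isTy_FXj D 0) hv
    have h1 := value_zero D hD hw x he hh
    have h2 : x.t 0 = 0 := by
      refine eq_zero_of_value D (x.prim 0) ((resX 0).comp ψ) ?_ ?_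
      · rw [← Law.map_map, hψ, Law.map_map, resX_comp_pr, FX_map_constantCoeff]
      · rw [RingHom.comp_apply, he 0 ψ hψ]
        exact (RingHom.congr_fun (resX_comp_pr (k := k) 0) e).trans h1
    rw [h2, map_zero]
  | succ j ih =>
    rw [← x.comp j] at ih
    obtain ⟨a, ha⟩ := Ideal.Quotient.mk_surjective (x.t (j + 1))
    rw [← ha] at ih ⊢
    rw [QKmap_mk, QKfac_mk, Ideal.Quotient.eq_zero_iff_mem] at ih
    rw [QKfac_mk, Ideal.Quotient.eq_zero_iff_mem]
    have h1 : h - 1 + 1 = h := by omega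
    rw [h1] at ih ⊢
    exact inj_NN p D.hh (by omega) a ih

end level0

end Vale.Agent.P261.H681
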