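import Vale.Agent.P261.H681.Fin
import Vale.Agent.P251.C.ShapiroOpen

/-!
# P261, part B1: finiteness and open subgroups

* `HFin.shapiro`: `H^s(P; M)` finite implies `H^s(G; LC(G/P, M))` finite (`P` open);
* `hfin_of_open`: if the cohomology of the open subgroup `P` with finite coefficients killed by `p`
  is finite, then so is the one of `G`.
-/

open Finset Function Set

namespace Vale.Agent.P261.H681

open Vale.Agent.P251.C

section Lift

variable {G : Type*} [Group G] [TopologicalSpace G] [CompactSpace G] (P : Subgroup G)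
  {M : Type*} [AddCommGroup M] [DistribMulAction P M]

/-- Shapiro's lemma, cochain form, for one cocycle. -/
theorem shapiro_coc {ρ : G → P} (hρ : Continuous ρ) (hρ' : ∀ (p : P) (g : G), ρ (p * g) = p * ρ g)
    {s : ℕ} (f : (Fin (s + 1) → G) → M)
    (hf : IsLocallyConstant f)
    (hf' : ∀ (p : P) (x : Fin (s + 1) → G), f (fun i => p * x i) = p • f x) (hd : dd f = 0)
    (Y : (Fin s → P) → M) (hY : IsCoch P Y) (hY2 : dd Y = fun x => f (Subtype.val ∘ x)) :
    ∃ y : (Fin s → G) → M, IsLocallyConstant y ∧
      (∀ (p : P) (x : Fin s → G), y (fun i => p * x i) = p • y x) ∧ dd y = f := by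
  set r : G → G := fun g => (ρ g : G) with hr
  have hrc : Continuous r := continuous_subtype_val.comp hρ
  refine ⟨fun x => Y (ρ ∘ x) - prism r f x, ?_, ?_, ?_⟩
  · exact (hY.lc.comp_continuous (continuous_pi fun j => hρ.comp (continuous_apply j))).sub
      (isLocallyConstant_prism hrc hf)
  · intro p x
    have e1 : Y (ρ ∘ fun i => (p : G) * x i) = p • Y (ρ ∘ x) := by
      rw [← hY.equi p (ρ ∘ x)]
      congr 1
      funext i
      exact hρ' p (x i)
    have e2 : prism r f (fun i => (p : G) * x i) = p • prism r f x := by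
      have h1 := prism_comp r (fun g => (p : G) * g) (fun g => by simp [hr, hρ']) f x
      have h2 : (fun y : Fin (s + 1) → G => f ((fun g => (p : G) * g) ∘ y)) =
          fun y => DistribSMul.toAddMonoidHom M p (f y) := by
        funext y
        exact hf' p y
      rw [h2, prism_map] at h1
      exact h1
    simp only [e1, e2, smul_sub]
  · have h1 : dd (fun x : Fin s → G => Y (ρ ∘ x) - prism r f x) =
        dd (fun x : Fin s → G => Y (ρ ∘ x)) - dd (prism r f) := dd_sub _ _
    rw [h1]
    funext x
    have h2 := prism_homotopy r f x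
    rw [hd, prism_zero, add_zero] at h2
    have h4 : dd (fun x : Fin s → G => Y (ρ ∘ x)) x = f (r ∘ x) := by
      rw [dd_comp ρ Y x, hY2]
      rfl
    rw [Pi.sub_apply, h4, h2]
    simp

end Lift

section Open

variable {G : Type*} [Group G] [TopologicalSpace G] [IsTopologicalGroup G] [CompactSpace G]
  [T2Space G] [TotallyDisconnectedSpace G] {M : Type*} [AddCommGroup M] [DistribMulAction G M]

/-- the values at the base point, on the subgroup -/
def evP (P : Subgroup G) [TopologicalSpace (G ⧸ P)] (s : ℕ) :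
    ((Fin (s + 1) → G) → LC (G ⧸ P) M) →+ ((Fin (s + 1) → P) → M) where
  toFun F x := F (Subtype.val ∘ x) ((1 : G) : G ⧸ P)
  map_zero' := rfl
  map_add' _ _ := rfl

theorem smul_mk_one {G : Type*} [Group G] (P : Subgroup G) (p : P) : (p : G) • ((1 : G) : G ⧸ P) = ((1 : G) : G ⧸ P) := by
  change (((p : G) * 1 : G) : G ⧸ P) = _
  rw [mul_one, QuotientGroup.eq]
  simp

/-- **Shapiro's lemma**, finiteness. -/
theorem HFin.shapiro [DiscMod G M] (P : Subgroup G) (hP : IsOpen (P : Set G)) {s : ℕ}
    (h : HFin P M s) : HFin G (LC (G ⧸ P) M) s := by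
  have hdisc : DiscreteTopology (G ⧸ P) := QuotientGroup.discreteTopology hP
  rcases s with _ | s
  · -- degree zero
    refine HFin.zero ?_
    refine Set.Finite.of_finite_image (f := fun F : LC (G ⧸ P) M => F ((1 : G) : G ⧸ P))
      (h.finite_inv.subset ?_) ?_
    · rintro _ ⟨F, hF, rfl⟩ p
      have h1 := DFunLike.congr_fun (hF (p : G)) ((1 : G) : G ⧸ P)
      rw [LC.smul_apply] at h1
      have h2 : (p : G)⁻¹ • ((1 : G) : G ⧸ P) = ((1 : G) : G ⧸ P) := by
        rw [inv_smul_eq_iff, smul_mk_one]
      rw [h2] at h1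
      exact h1
    · intro F hF F' hF' hFF
      ext x
      obtain ⟨g, rfl⟩ := QuotientGroup.mk_surjective x
      have h3 : ∀ F : LC (G ⧸ P) M, (∀ g : G, g • F = F) →
          F (g : G ⧸ P) = g • F ((1 : G) : G ⧸ P) := by
        intro F hF
        have h1 := DFunLike.congr_fun (hF g) (g : G ⧸ P)
        rw [LC.smul_apply] at h1
        have h2 : g⁻¹ • (g : G ⧸ P) = ((1 : G) : G ⧸ P) := by
          change ((g⁻¹ * g : G) : G ⧸ P) = _
          rw [inv_mul_cancel]
        rw [h2] at h1
        exact h1.symm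
      rw [h3 F hF, h3 F' hF']
      exact congrArg _ hFF
  · refine FinQ.comap (evP P (s + 1)) ?_ h ?_
    · intro F hF
      refine ⟨⟨?_, ?_⟩, ?_⟩
      · exact (hF.1.lc.comp fun f : LC (G ⧸ P) M => f ((1 : G) : G ⧸ P)).comp_continuous
          (continuous_pi fun j => continuous_subtype_val.comp (continuous_apply j))
      · intro p x
        have h1 := DFunLike.congr_fun (hF.1.equi (p : G) (Subtype.val ∘ x)) ((1 : G) : G ⧸ P)
        rw [LC.smul_apply] at h1
        have h2 : (p : G)⁻¹ • ((1 : G) : G ⧸ P) = ((1 : G) : G ⧸ P) := by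
          rw [inv_smul_eq_iff, smul_mk_one]
        rw [h2] at h1
        exact h1
      · funext x
        have h1 := congrFun hF.2 (Subtype.val ∘ x)
        have h2 : dd F (Subtype.val ∘ x) ((1 : G) : G ⧸ P) = 0 := by
          rw [h1]; rfl
        have h3 : dd (fun k => F k ((1 : G) : G ⧸ P)) (Subtype.val ∘ x) = 0 := by
          rw [dd_apply_LC] at h2
          exact h2
        exact h3
    · rintro F ⟨hF, hdF⟩ ⟨Y, hY, hYF⟩
      obtain ⟨ρ, hρ, hρ'⟩ := exists_retraction_of_open P hP
      obtain ⟨y, hy1, hy2, hy3⟩ := shapiro_coc P hρ hρ' (fun k => F k ((1 : G) : G ⧸ P))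
        (hF.lc.comp fun f : LC (G ⧸ P) M => f ((1 : G) : G ⧸ P)) (by
          intro p k
          rw [hF.equi p k, LC.smul_apply]
          have h2 : (p : G)⁻¹ • ((1 : G) : G ⧸ P) = ((1 : G) : G ⧸ P) := by
            rw [inv_smul_eq_iff, smul_mk_one]
          rw [h2]
          rfl) (by
          funext k
          rw [← dd_apply_LC, hdF]
          rfl) Y hY hYF
      obtain ⟨Z, hZ1, hZ2, hZ3⟩ := exists_equivariant_extension (X := G ⧸ P) ((1 : G) : G ⧸ P) y hy1
        (by
          intro p x
          have hp : (p : G) ∈ P :=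
            (SetLike.ext_iff.1 (MulAction.stabilizer_quotient P) (p : G)).1 p.2
          exact hy2 ⟨p, hp⟩ x)
      have hlc : ∀ k, IsLocallyConstant (Z k) := fun k =>
        hZ1.comp_continuous (Continuous.prodMk continuous_const continuous_id)
      refine ⟨fun k => LC.mk (Z k) (hlc k), ⟨isLocallyConstant_curry _ hZ1, ?_⟩, ?_⟩
      · intro g k
        ext x
        rw [LC.smul_apply, LC.mk_apply, LC.mk_apply, ← hZ2 g k, smul_inv_smul]
      · funext k
        ext x
        obtain ⟨g, rfl⟩ := QuotientGroup.mk_surjective x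
        have hg : (g : G ⧸ P) = g • ((1 : G) : G ⧸ P) := by
          change _ = ((g * 1 : G) : G ⧸ P)
          rw [mul_one]
        have e2 : dd (fun k => LC.mk (Z k) (hlc k)) k (g : G ⧸ P) =
            dd (fun k => Z k (g : G ⧸ P)) k := dd_apply_LC _ _ _
        rw [e2]
        have e3 : (fun k => Z k (g : G ⧸ P)) = fun k => g • y (fun i => g⁻¹ * k i) := by
          funext k
          rw [hg]
          exact hZ3 g k
        have e4 : dd (fun k => g • y (fun i => g⁻¹ * k i)) k =
            g • dd (fun k => y (fun i => g⁻¹ * k i)) k :=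
          congrFun (dd_map (DistribSMul.toAddMonoidHom M g) (fun k => y (fun i => g⁻¹ * k i))) k
        have e5 : dd (fun k => y (fun i => g⁻¹ * k i)) k = dd y (fun i => g⁻¹ * k i) :=
          dd_comp (fun z : G => g⁻¹ * z) y k
        rw [e3, e4, e5, hy3]
        have h1 := DFunLike.congr_fun (hF.equi g⁻¹ k) ((1 : G) : G ⧸ P)
        rw [LC.smul_apply, inv_inv, ← hg] at h1
        change g • F (fun i => g⁻¹ * k i) ((1 : G) : G ⧸ P) = _
        rw [h1, smul_inv_smul]

end Open

section main

variable {G : Type} [Group G] [TopologicalSpace G] [IsTopologicalGroup G] [CompactSpace G]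
  [T2Space G] [TotallyDisconnectedSpace G]

/-- If the cohomology of the open subgroup `P` with finite coefficients killed by `p` is finite,
then so is the one of `G`. -/
theorem hfin_of_open {P : Subgroup G} (hP : IsOpen (P : Set G)) {p : ℕ}
    (h : ∀ (M : Type) [AddCommGroup M] [DistribMulAction P M] [DiscMod P M] [Finite M],
      (∀ m : M, p • m = 0) → ∀ s, HFin P M s) (s : ℕ) :
    ∀ (M : Type) [AddCommGroup M] [DistribMulAction G M] [DiscMod G M] [Finite M],
      (∀ m : M, p • m = 0) → HFin G M s := by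
  have hdisc : DiscreteTopology (G ⧸ P) := QuotientGroup.discreteTopology hP
  have hfin : Finite (G ⧸ P) := Subgroup.quotient_finite_of_isOpen P hP
  have : ContinuousSMul G (G ⧸ P) := inferInstance
  induction s with
  | zero => intro M _ _ _ _ _; exact HFin.zero (Set.toFinite _)
  | succ s ih =>
    intro M _ _ _ _ hM
    have hdL : DiscMod G (LC (G ⧸ P) M) := discMod_LC
    have hfL : Finite (LC (G ⧸ P) M) :=
      Finite.of_injective (fun F : LC (G ⧸ P) M => (F : G ⧸ P → M)) DFunLike.coe_injective
    let A : AddSubgroup (LC (G ⧸ P) M) := (LC.const G (G ⧸ P) M : M →+ LC (G ⧸ P) M).range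
    have hA : ∀ (g : G) (a : LC (G ⧸ P) M), a ∈ A → g • a ∈ A := by
      rintro g _ ⟨m, rfl⟩
      exact ⟨g • m, (map_smul (LC.const G (G ⧸ P) M) g m)⟩
    let _ : DistribMulAction G (LC (G ⧸ P) M ⧸ A) := quotAct A hA
    let q : LC (G ⧸ P) M →+[G] LC (G ⧸ P) M ⧸ A :=
      { toFun := fun x => (x : LC (G ⧸ P) M ⧸ A)
        map_smul' := fun g x => rfl
        map_zero' := rfl
        map_add' := fun x y => rfl }
    have hq : Function.Surjective q := QuotientAddGroup.mk_surjective
    have : DiscMod G (LC (G ⧸ P) M ⧸ A) := by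
      refine ⟨fun m => ?_⟩
      obtain ⟨x, rfl⟩ := hq m
      refine Subgroup.isOpen_of_mem_nhds (MulAction.stabilizer G (q x)) (g := 1) ?_
      refine Filter.mem_of_superset ((DiscMod.isOpen_stab (G := G) x).mem_nhds (one_smul G x)) ?_
      intro g hg
      have hg' : g • x = x := hg
      change g • q x = q x
      rw [← map_smul, hg']
    have : Finite (LC (G ⧸ P) M ⧸ A) := Finite.of_surjective q hq
    refine HFin.left (LC.const G (G ⧸ P) M) q ?_ hq ?_ ?_ (HFin.shapiro P hP ?_) (ih _ ?_)
    · intro a b hab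
      exact DFunLike.congr_fun hab ((1 : G) : G ⧸ P)
    · intro a
      exact (QuotientAddGroup.eq_zero_iff _).2 ⟨a, rfl⟩
    · intro b hb
      obtain ⟨a, ha⟩ := (QuotientAddGroup.eq_zero_iff b).1 hb
      exact ⟨a, ha⟩
    · exact h M hM (s + 1)
    · intro m
      obtain ⟨x, rfl⟩ := hq m
      rw [← map_nsmul]
      have : p • x = 0 := by
        ext y
        exact (map_nsmul (LC.ev y) p x).trans (hM _)
      rw [this, map_zero]

end main

end Vale.Agent.P261.H681
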