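import Vale.Agent.P261.TopMain
import Vale.Agent.P261.H681.H0f

/-!
# P261: the homotopy of `L_{K(h)}(S/p)` in degrees divisible by `2 (p - 1)`

`D : MUData T`, `C = S/p`, `F` the localization at the Koszul object of height `h`, `p` odd,
`h ^ 2 < 2 (p - 1)` and `p - 1` does not divide `h`.

* `topH0_fin`: `π_t (L (S/p))` is finite if `2 (p - 1) ∣ t`;
* `topH0_zero`: if `2 ≤ h`, `t < 0` and `2 (p - 1) ∣ t` then `π_t (L (S/p)) = 0`.
-/

open CategoryTheory MonoidalCategory Limits Pretriangulated MonObj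

set_option linter.unusedSectionVars false

universe v u

namespace Vale.Agent.P261.H681

open Vale.Agent.P251.S Vale.Agent.P251.T Vale.Agent.P251.M Vale.Agent.P251.F Vale.Agent.P251
open Vale.Agent.P261

theorem deg_zero {p : ℕ} {H s : ℕ} {t : ℤ} (hH : (H : ℤ) < 2 * ((p : ℤ) - 1))
    (ht : 2 * ((p : ℤ) - 1) ∣ t) (hs : s ≤ H) (hd : 2 * ((p : ℤ) - 1) ∣ t + s) : s = 0 := by
  have h1 : 2 * ((p : ℤ) - 1) ∣ (s : ℤ) := (Int.dvd_add_right ht).1 hd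
  by_contra h0
  have h2 := Int.le_of_dvd (by exact_mod_cast Nat.pos_of_ne_zero h0) h1
  have h3 : (s : ℤ) ≤ (H : ℤ) := by exact_mod_cast hs
  linarith

variable {T : Type u} [Category.{v} T] [Preadditive T] [HasZeroObject T]
    [HasShift T ℤ] [∀ n : ℤ, (shiftFunctor T n).Additive] [Pretriangulated T] [IsTriangulated T]
    [MonoidalCategory T] [SymmetricCategory T] [TensorTriangulated T] [MonoidalClosed T]
    [HasCoproducts.{0} T] [HasProducts.{0} T] [StableCat T]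

variable (D : I.MUData T) {p h : ℕ} [hp : Fact p.Prime]
  {C : T} {i : 𝟙_ T ⟶ C} {δ : C ⟶ (𝟙_ T)⟦(1 : ℤ)⟧}
  (Dk : KosData D.P (p : ℤ) h (D.vs p)) (F : LocFunctor Dk.K)
  (hp2 : p ≠ 2)
  (hC : Triangle.mk ((p : ℤ) • 𝟙 (𝟙_ T)) i δ ∈ distTriang T) (hd : ¬ (p - 1) ∣ h)
  (hH : ((h * h : ℕ) : ℤ) < 2 * ((p : ℤ) - 1))

include hp2 hC hd hH

/-- `π_t (L (S/p))` is finite if `2 (p - 1) ∣ t`. -/
theorem topH0_fin (hh : 1 ≤ h) (t : ℤ) (ht : 2 * ((p : ℤ) - 1) ∣ t) :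
    Finite ((𝟙_ T)⟦t⟧ ⟶ F.L.obj (𝟙_ T ⊗ C)) := by
  refine top_fin_of D Dk F hp2 hh hC hd t fun w s hw hs hd' => ?_
  have h0 : s = 0 := deg_zero hH ht hs (by rw [hw]; exact mul_dvd_mul_left 2 hd')
  subst h0
  exact H0_fin hp2 (by omega) w

/-- `π_t (L (S/p)) = 0` if `t < 0`, `2 (p - 1) ∣ t` and the height is at least two. -/
theorem topH0_zero (hh : 2 ≤ h) (t : ℤ) (ht : 2 * ((p : ℤ) - 1) ∣ t) (ht0 : t < 0)
    (x : (𝟙_ T)⟦t⟧ ⟶ F.L.obj (𝟙_ T ⊗ C)) : x = 0 := by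
  have hh1 : 1 ≤ h := by omega
  obtain ⟨U⟩ := exists_unitCof D.R
  obtain ⟨y, rfl⟩ := (eD0 D U C F t).surjective x
  rw [Couple.D_eq_zero (cpl_conv D Dk F hp2 hh1 hC hd U) (fun s => ?_) y, map_zero]
  by_cases hs : s ≤ h * h ∧ 2 * ((p : ℤ) - 1) ∣ t + s
  · have h0 : s = 0 := deg_zero hH ht hs.1 hs.2
    subst h0
    obtain ⟨a, ha⟩ := ht
    have hw : t + ((0 : ℕ) : ℤ) = 2 * (((p : ℤ) - 1) * a) := by
      rw [Nat.cast_zero, add_zero, ha]; ring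
    refine ((grOut D U hp2 hh1 hC Dk F).model _).EZ_le_of hw fun x hx => ?_
    have h1 : ((p : ℤ) - 1) * a < 0 := by
      have : 2 * (((p : ℤ) - 1) * a) = t := by rw [← hw]; simp
      omega
    rw [H0_van hh h1 x hx]
    exact AddSubgroup.zero_mem _
  · exact cpl_sparse D Dk F hp2 hh1 hC hd U s t hs

end Vale.Agent.P261.H681
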