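import Vale.Agent.P261.H681.Open
import Vale.Agent.P251.C.Main

/-!
# P261, part B1: finiteness of the cohomology of virtually uniform groups

* `HFin.iter`: dimension shifting along a resolution by acyclic modules with finitely many
  invariants;
* `hfin_unif`: `H^s(U; M)` is finite for `U` uniform and `M` finite, killed by `p`;
* `hfin_virtUnif`: the same for virtually uniform groups.
-/

set_option linter.unusedSectionVars false

open Finset Function

namespace Vale.Agent.P261.H681

open Vale.Agent.P251.C Vale.Agent.P251.I NpData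

section iter

variable {G : Type*} [Group G] [TopologicalSpace G] [IsTopologicalGroup G]

/-- Dimension shifting along a resolution by acyclic modules with finitely many invariants. -/
theorem HFin.iter (s : ℕ) : ∀ (M : Type) [AddCommGroup M] [DistribMulAction G M]
    (J : ℕ → Type) [∀ i, AddCommGroup (J i)]
    [∀ i, DistribMulAction G (J i)] [∀ i, DiscMod G (J i)]
    (ε : M →+[G] J 0) (δ : ∀ i, J i →+[G] J (i + 1))
    (_ : Function.Injective ε)
    (_ : ∀ x, δ 0 x = 0 ↔ ∃ m, ε m = x)
    (_ : ∀ i x, δ (i + 1) x = 0 ↔ ∃ y, δ i y = x)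
    (_ : ∀ i s, HZero G (J i) (s + 1)) (_ : ∀ i, {x : J i | ∀ g : G, g • x = x}.Finite),
    HFin G M s := by
  induction s with
  | zero =>
    intro M _ _ J _ _ _ ε δ hε _ _ _ hfin
    refine HFin.zero (Set.Finite.of_finite_image (f := ε) ((hfin 0).subset ?_) hε.injOn)
    rintro _ ⟨m, hm, rfl⟩ g
    rw [← map_smul, hm g]
  | succ s ih =>
    intro M _ _ J _ _ _ ε δ hε hex0 hex hJ hfin
    have hst : ∀ (g : G) (a : J 1), a ∈ (δ 1 : J 1 →+ J 2).ker →
        g • a ∈ (δ 1 : J 1 →+ J 2).ker := by
      intro g a ha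
      have ha' : δ 1 a = 0 := ha
      change δ 1 (g • a) = 0
      rw [map_smul, ha', smul_zero]
    let _ : DistribMulAction G (δ 1 : J 1 →+ J 2).ker := subAct _ hst
    let εZ : (δ 1 : J 1 →+ J 2).ker →+[G] J 1 :=
      { toFun := fun z => z.1
        map_smul' := fun g z => rfl
        map_zero' := rfl
        map_add' := fun a b => rfl }
    have key := ih (δ 1 : J 1 →+ J 2).ker (fun i => J (i + 1)) εZ
      (fun i => δ (i + 1)) Subtype.val_injective
      (fun x => ⟨fun h => ⟨⟨x, h⟩, rfl⟩, fun ⟨m, hm⟩ => hm ▸ m.2⟩)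
      (fun i x => hex (i + 1) x) (fun i s => hJ (i + 1) s) (fun i => hfin (i + 1))
    let qZ : J 0 →+[G] (δ 1 : J 1 →+ J 2).ker :=
      { toFun := fun x => ⟨δ 0 x, (hex 0 _).2 ⟨x, rfl⟩⟩
        map_smul' := fun g z => Subtype.ext (map_smul (δ 0) g z)
        map_zero' := Subtype.ext (map_zero (δ 0))
        map_add' := fun a b => Subtype.ext (map_add (δ 0) a b) }
    have hq : Function.Surjective qZ := fun z => by
      obtain ⟨y, hy⟩ := (hex 0 z.1).1 z.2
      exact ⟨y, Subtype.ext hy⟩
    exact HFin.left ε qZ hε hq (fun a => Subtype.ext ((hex0 _).2 ⟨a, rfl⟩))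
      (fun b hb => (hex0 b).1 (congrArg Subtype.val hb)) (HFin.of_HZero (hJ 0 s)) key

end iter

section unif

variable {p d : ℕ} [Fact p.Prime]

/-- The cohomology of a uniform group with finite coefficients is finite. -/
theorem hfin_unif (hp2 : p ≠ 2) {S : Type} [Group S] [TopologicalSpace S]
    [IsTopologicalGroup S] [CompactSpace S] [T2Space S] [TotallyDisconnectedSpace S]
    (hS : IsUnif p d S) (M : Type) [AddCommGroup M] [DistribMulAction S M] [DiscMod S M]
    [Finite M] (hM : ∀ m : M, p • m = 0) (s : ℕ) : HFin S M s := by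
  classical
  have h1 : IsUnif p d (⊤ : Subgroup S) :=
    IsUnif.of_equiv hS Subgroup.topEquiv continuous_subtype_val
      (Continuous.subtype_mk continuous_id _)
  have htc : CompactSpace (⊤ : Subgroup S) := isCompact_iff_compactSpace.1 isCompact_univ
  obtain ⟨ρ, hρ, hd⟩ := exists_resData hp2 h1
  let U : Subgroup S := ⊤
  let X : Type := KX d U
  have hU : IsOpen (U : Set S) := isOpen_univ
  have hfree : ∀ (u : U) (z : X), u • z = z → u = 1 := fun u z => free_KX u z
  have hUn : U.Normal := inferInstanceAs (⊤ : Subgroup S).Normal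
  have hc : Nat.card (S ⧸ U) = 1 := by
    rw [← Subgroup.index_eq_card]
    exact Subgroup.index_top
  have hsub : Subsingleton (S ⧸ U) := (Nat.card_eq_one_iff_unique.1 hc).1
  have hfinQ : Finite (S ⧸ U) := inferInstance
  let _ : Fintype (S ⧸ U) := Fintype.ofFinite _
  let _ : Module (ZMod p) M := AddCommGroup.zmodModule hM
  have : SMulCommClass S (ZMod p) M := smulComm_zmod
  have : ContinuousSMul S (IndSp U X) := continuousSMul_indSp hU
  have hns : ∀ (g : S) (c e : S ⧸ U), g • c = e → g • e = c → c = e :=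
    fun _ _ _ _ _ => Subsingleton.elim _ _
  have : DiscMod S (LC (IndSp U X) M) := discMod_LC
  have hst : ∀ i (g : S) (a : LC (IndSp U X) M), a ∈ JMod U ρ M i →
      g • a ∈ JMod U ρ M i := fun i g a ha => smul_mem_JMod ρ hρ g ha
  let _ : ∀ i, DistribMulAction S (JMod U ρ M i) := fun i => subAct _ (hst i)
  have : ∀ i, DiscMod S (JMod U ρ M i) := fun i => discMod_sub _ (hst i)
  let ε : M →+[S] JMod U ρ M 0 :=
    { toFun := fun m => ⟨augJ ρ U M m, augJ_mem ρ m⟩
      map_smul' := fun g m => Subtype.ext (augJ_smul ρ hρ g m)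
      map_zero' := Subtype.ext (map_zero (augJ ρ U M))
      map_add' := fun a b => Subtype.ext (map_add (augJ ρ U M) a b) }
  let δ : ∀ i, JMod U ρ M i →+[S] JMod U ρ M (i + 1) := fun i =>
    { toFun := fun z => ⟨dJ ρ U M z.1, dJ_mem ρ z.2⟩
      map_smul' := fun g z => Subtype.ext (dJ_smul ρ hρ g z.1)
      map_zero' := Subtype.ext (map_zero (dJ ρ U M))
      map_add' := fun a b => Subtype.ext (map_add (dJ ρ U M) a.1 b.1) }
  refine HFin.iter (G := S) s M (fun i => JMod U ρ M i) ε δ ?_ ?_ ?_ ?_ ?_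
  · intro a b hab
    exact augJ_injective (ZMod p) ρ (congrArg Subtype.val hab)
  · intro x
    constructor
    · intro h
      obtain ⟨m, hm⟩ := exactJ_zero ρ hns x.2 (congrArg Subtype.val h)
      exact ⟨m, Subtype.ext hm⟩
    · rintro ⟨m, rfl⟩
      exact Subtype.ext (dJ_augJ ρ m)
  · intro i x
    constructor
    · intro h
      obtain ⟨y, hy, hyx⟩ := exactJ_pos ρ hns x.2 (congrArg Subtype.val h)
      exact ⟨⟨y, hy⟩, Subtype.ext hyx⟩
    · rintro ⟨y, rfl⟩
      exact Subtype.ext (dJ_dJ ρ hns y.1)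
  · intro i s
    have h1 : HMapZero S (s + 1) (LC.mapG (IndSp U X) (DistribMulActionHom.id S : M →+[S] M)) :=
      lemmaX_free _ fun g x hx => stab_inf hfree x (Subgroup.mem_top g) hx
    let ι : JMod U ρ M i →+[S] LC (IndSp U X) M :=
      { toFun := fun z => z.1
        map_smul' := fun g z => rfl
        map_zero' := rfl
        map_add' := fun a b => rfl }
    let π : LC (IndSp U X) M →+[S] JMod U ρ M i :=
      { toFun := fun F => ⟨cmpJ ρ U M i F, cmpJ_mem ρ i F⟩
        map_smul' := fun g F => Subtype.ext (cmpJ_smul ρ hρ i g F)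
        map_zero' := Subtype.ext (map_zero (cmpJ ρ U M i))
        map_add' := fun a b => Subtype.ext (map_add (cmpJ ρ U M i) a b) }
    have h2 := (h1.comp_right ι).comp_left π
    have h3 : (π ∘ (LC.mapG (IndSp U X) (DistribMulActionHom.id S : M →+[S] M)) ∘ ι :
        JMod U ρ M i → JMod U ρ M i) = id := by
      funext z
      exact Subtype.ext (cmpJ_of_mem ρ z.2)
    rw [hzero_iff, ← h3]
    exact h2
  · intro i
    -- the base points
    let e : Finset (Fin d) → IndSp U X := fun T => IndSp.mk fun _ => ⟨T, 1⟩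
    have he : ∀ x : IndSp U X, ∃ (T : Finset (Fin d)) (g : S), g • e T = x := by
      intro x
      let c₀ : S ⧸ U := ((1 : S) : S ⧸ U)
      let r : S := Quotient.out c₀
      refine ⟨(x.fn c₀).1, r * ((x.fn c₀).2 : S) * r⁻¹, ?_⟩
      apply IndSp.ext
      intro c
      obtain rfl : c = c₀ := Subsingleton.elim _ _
      rw [IndSp.smul_fn]
      change (⟨(x.fn c₀).1, cos U _ c₀ * 1⟩ : KX d U) = x.fn c₀
      have h2 : (cos U (r * ((x.fn c₀).2 : S) * r⁻¹) c₀ * 1 : U) = (x.fn c₀).2 := by
        apply Subtype.ext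
        rw [mul_one]
        change (Quotient.out c₀)⁻¹ * (r * ((x.fn c₀).2 : S) * r⁻¹ *
          Quotient.out ((r * ((x.fn c₀).2 : S) * r⁻¹)⁻¹ • c₀)) = _
        rw [show (r * ((x.fn c₀).2 : S) * r⁻¹)⁻¹ • c₀ = c₀ from Subsingleton.elim _ _]
        change r⁻¹ * (r * ((x.fn c₀).2 : S) * r⁻¹ * r) = _
        group
      rw [h2]
    refine Set.Finite.of_finite_image
      (f := fun z : JMod U ρ M i => fun T : Finset (Fin d) => z.1 (e T)) (Set.toFinite _) ?_
    intro z hz z' hz' hzz
    apply Subtype.ext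
    ext x
    obtain ⟨T, g, rfl⟩ := he x
    have h3 : ∀ z : JMod U ρ M i, (∀ g : S, g • z = z) → z.1 (g • e T) = g • z.1 (e T) := by
      intro z hz
      have h4 : g • z.1 = z.1 := congrArg Subtype.val (hz g)
      have h5 := DFunLike.congr_fun h4 (g • e T)
      rw [LC.smul_apply, inv_smul_smul] at h5
      exact h5.symm
    rw [h3 z hz, h3 z' hz']
    exact congrArg _ (congrFun hzz T)

end unif

section virt

variable {p d : ℕ} [Fact p.Prime]

/-- **The cohomology of a virtually uniform group with finite coefficients killed by `p` is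
finite.** -/
theorem hfin_virtUnif (hp2 : p ≠ 2) {G : Type} [Group G] [TopologicalSpace G]
    [IsTopologicalGroup G] [CompactSpace G] [T2Space G] [TotallyDisconnectedSpace G]
    (V : VirtUnif p d G) (M : Type) [AddCommGroup M] [DistribMulAction G M] [DiscMod G M]
    [Finite M] (hM : ∀ m : M, p • m = 0) (s : ℕ) : HFin G M s := by
  have hVc : CompactSpace V.U :=
    isCompact_iff_compactSpace.1 (Subgroup.isClosed_of_isOpen V.U V.isOpen).isCompact
  exact hfin_of_open V.isOpen (fun M _ _ _ _ hM s => hfin_unif hp2 V.unif M hM s) s M hM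

end virt

end Vale.Agent.P261.H681
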